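import Vale.Agent.P252.Rigidity.Three.Spec

/-!
# Scalar atoms of the flux certificate

All terms of `Jet.flux` and of the Gram form are polynomials in the inner products `Zₐ · Z_b`,
`hh a b = Zₐ · H Z_b`, `tt a b c = Zₐ · C_b Z_c` and the Frobenius products of `H`, `C 0`, `C 1`,
`C 2`.
-/

namespace Vale.Agent.P252.Three

open Matrix Finset

noncomputable section

/-- The Frobenius product. -/
def fr (A B : Matrix (Fin 3) (Fin 3) ℝ) : ℝ := ∑ i, ∑ j, A i j * B i j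

section

variable (A B X : Matrix (Fin 3) (Fin 3) ℝ) (a b : Fin 3 → ℝ) (c : ℝ)

lemma fr_comm : fr A B = fr B A := by simp only [fr, mul_comm]

lemma fr_add_left : fr (A + B) X = fr A X + fr B X := by
  simp only [fr, Matrix.add_apply, add_mul, sum_add_distrib]

lemma fr_smul_left : fr (c • A) X = c * fr A X := by
  simp only [fr, Matrix.smul_apply, smul_eq_mul, mul_sum, mul_assoc]

lemma fr_neg_left : fr (-A) X = -fr A X := by
  simp only [fr, Matrix.neg_apply, neg_mul, sum_neg_distrib]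

lemma fr_sub_left : fr (A - B) X = fr A X - fr B X := by
  rw [sub_eq_add_neg, fr_add_left, fr_neg_left, sub_eq_add_neg]

lemma fr_add_right : fr X (A + B) = fr X A + fr X B := by
  rw [fr_comm, fr_add_left, fr_comm A, fr_comm B]

lemma fr_smul_right : fr X (c • A) = c * fr X A := by rw [fr_comm, fr_smul_left, fr_comm A]

lemma fr_neg_right : fr X (-A) = -fr X A := by rw [fr_comm, fr_neg_left, fr_comm A]

lemma fr_sub_right : fr X (A - B) = fr X A - fr X B := by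
  rw [fr_comm, fr_sub_left, fr_comm A, fr_comm B]

lemma fr_vmv_left : fr (vecMulVec a b) X = a ⬝ᵥ X *ᵥ b := by
  simp only [fr, vecMulVec_apply, dotProduct, mulVec, mul_sum]
  exact sum_congr rfl fun i _ => sum_congr rfl fun j _ => by ring

lemma fr_vmv_right : fr X (vecMulVec a b) = a ⬝ᵥ X *ᵥ b := by rw [fr_comm, fr_vmv_left]

lemma fr_one_left : fr 1 X = X.trace := by
  simp [fr, Matrix.trace, Matrix.one_apply]

lemma fr_one_right : fr X 1 = X.trace := by rw [fr_comm, fr_one_left]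

lemma dot_vmv (x y : Fin 3 → ℝ) : x ⬝ᵥ vecMulVec a b *ᵥ y = (x ⬝ᵥ a) * (b ⬝ᵥ y) := by
  simp only [dotProduct, mulVec, vecMulVec_apply, mul_sum, sum_mul]
  rw [sum_comm]
  exact sum_congr rfl fun i _ => sum_congr rfl fun j _ => by ring

lemma trace_one_three : (1 : Matrix (Fin 3) (Fin 3) ℝ).trace = 3 := by simp

lemma trace_mul_of_symm (h : Aᵀ = A) : (A * B).trace = fr A B := by
  simp only [fr, Matrix.trace, Matrix.diag, Matrix.mul_apply]
  rw [sum_comm]
  exact sum_congr rfl fun i _ => sum_congr rfl fun j _ => by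
    rw [show A j i = Aᵀ i j from rfl, h]

end

namespace Jet

variable (J : Jet)

/-- `Zₐ · H Z_b`. -/
def hh (a b : Fin 3) : ℝ := J.Z a ⬝ᵥ J.H *ᵥ J.Z b

/-- `Zₐ · C_b Z_c`. -/
def tt (a b c : Fin 3) : ℝ := J.Z a ⬝ᵥ J.C b *ᵥ J.Z c

/-- `Zₐ · Z_b`. -/
def dd (a b : Fin 3) : ℝ := J.Z a ⬝ᵥ J.Z b

/-- The symmetrised product of two covectors. -/
def so (a b : Fin 3) : Matrix (Fin 3) (Fin 3) ℝ :=
  (1 / 2 : ℝ) • (vecMulVec (J.Z a) (J.Z b) + vecMulVec (J.Z b) (J.Z a))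

lemma dot_eq (a b : Fin 3) : J.Z a ⬝ᵥ J.Z b = J.dd a b := rfl

lemma hh_eq (a b : Fin 3) : J.Z a ⬝ᵥ J.H *ᵥ J.Z b = J.hh a b := rfl

lemma tt_eq (a b c : Fin 3) : J.Z a ⬝ᵥ J.C b *ᵥ J.Z c = J.tt a b c := rfl

lemma dW_eq : J.dW = (30 : ℝ) • J.Z 1 + (2 : ℝ) • J.Z 2 + (-3 / 8 : ℝ) • J.Z 0 := rfl

lemma t_eq : J.t = J.Z 0 := rfl

lemma dl_zero : J.dl 0 = J.H := rfl

lemma dl_one : J.dl 1 = -vecMulVec (J.Z 1) (J.Z 1) - J.e₁ • (1 : Matrix (Fin 3) (Fin 3) ℝ) := rfl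

lemma dl_two : J.dl 2 =
    J.C 2 + vecMulVec (J.Z 2) (J.Z 2) - J.e₂ • (1 : Matrix (Fin 3) (Fin 3) ℝ) := rfl

lemma du_zero : J.du 0 = J.H - J.C 0 := rfl

lemma du_one : J.du 1 =
    -vecMulVec (J.Z 1) (J.Z 1) - J.e₁ • (1 : Matrix (Fin 3) (Fin 3) ℝ) - J.C 1 := rfl

lemma du_two : J.du 2 = vecMulVec (J.Z 2) (J.Z 2) - J.e₂ • (1 : Matrix (Fin 3) (Fin 3) ℝ) := by
  rw [du, dl_two]; abel

lemma dd_comm (a b : Fin 3) : J.dd a b = J.dd b a := dotProduct_comm _ _

variable {J}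

namespace Valid

variable (h : J.Valid)
include h

lemma dd_one_two : J.dd 1 2 = J.e₁ - J.e₂ := h.vw

lemma dd_two_one : J.dd 2 1 = J.e₁ - J.e₂ := by rw [dd_comm]; exact h.vw

lemma trace_H : J.H.trace = 4 / 5 * J.dd 0 0 := h.trH

lemma trace_C (z : Fin 3) : (J.C z).trace = J.dd z 0 := by
  simp only [C, trace_sum, trace_smul, h.trT, smul_eq_mul, dd, t_eq, dotProduct]

lemma C_symm (z : Fin 3) : (J.C z)ᵀ = J.C z := by
  simp only [C, transpose_sum, transpose_smul, h.symT.transpose]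

lemma hh_comm (a b : Fin 3) : J.hh a b = J.hh b a := by
  rw [hh, hh, dotProduct_comm, ← vecMul_transpose, h.symH, ← dotProduct_mulVec]

lemma tt_swap13 (a b c : Fin 3) : J.tt a b c = J.tt c b a := by
  rw [tt, tt, dotProduct_comm, ← vecMul_transpose, h.C_symm, ← dotProduct_mulVec]

lemma tt_swap12 (a b c : Fin 3) : J.tt a b c = J.tt b a c := by
  simp only [tt, C, sum_mulVec, smul_mulVec, dotProduct_sum, dotProduct_smul, smul_eq_mul]
  simp only [dotProduct, mulVec, mul_sum]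
  rw [sum_comm]
  exact sum_congr rfl fun i _ => sum_congr rfl fun j _ => sum_congr rfl fun k _ => by
    rw [h.symT.s12 j i k]; ring

end Valid

end Jet

end

end Vale.Agent.P252.Three
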