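import Vale.Agent.P252.Rigidity.Three.Cert.Perm

/-!
# The fields in atoms (generated from the exact certificate)
-/

set_option linter.unusedSimpArgs false
set_option linter.unusedSectionVars false

namespace Vale.Agent.P252.Three

open Matrix Finset

noncomputable section

namespace Jet

variable {J : Jet}

variable (h : J.Valid)
include h

lemma fieldK_000 : J.fieldK 0 0 0 =
      (2 : ℝ) * J.hh 0 0 + (-1 : ℝ) * J.tt 0 0 0 + (17 / 40 : ℝ) * J.dd 0 0 * J.dd 0 0 +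
      (30 : ℝ) * J.dd 0 0 * J.dd 0 1 + (2 : ℝ) * J.dd 0 0 * J.dd 0 2 := by
  simp only [fieldK]
  simp only [dW_eq, t_eq, dl_zero, dl_one, dl_two, du_zero, du_one, du_two, so, fr_add_left, fr_add_right,
    fr_sub_left, fr_sub_right, fr_smul_left, fr_smul_right, fr_neg_left, fr_neg_right, fr_vmv_left,
    fr_vmv_right, fr_one_left, fr_one_right, trace_add, trace_sub, trace_neg, trace_smul,
    trace_vecMulVec, trace_one_three, add_mulVec, sub_mulVec, neg_mulVec, smul_mulVec, one_mulVec,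
    mulVec_add, mulVec_sub, mulVec_smul, dot_vmv, dotProduct_add, add_dotProduct, dotProduct_sub,
    sub_dotProduct, dotProduct_neg, neg_dotProduct, dotProduct_smul, smul_dotProduct, smul_eq_mul,
    dot_eq, hh_eq, tt_eq, h.trace_H, h.trace_C]
  simp only [h.dd_one_two, h.dd_two_one, h.hh10, h.dd10, h.hh20, h.dd20, h.hh21, h.tt010, h.tt020,
    h.tt021, h.tt100, h.tt101, h.tt102, h.tt110, h.tt120, h.tt121, h.tt200, h.tt201, h.tt202,
    h.tt210, h.tt211, h.tt212, h.tt220, h.tt221, fr_comm (J.C 0) J.H, fr_comm (J.C 1) J.H,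
    fr_comm (J.C 2) J.H, fr_comm (J.C 1) (J.C 0), fr_comm (J.C 2) (J.C 0),
    fr_comm (J.C 2) (J.C 1)]
  ring

lemma fieldK_001 : J.fieldK 0 0 1 =
      (1 : ℝ) * J.hh 0 1 + (-1 : ℝ) * J.tt 0 0 1 + (17 / 40 : ℝ) * J.dd 0 0 * J.dd 0 1 +
      (-1 : ℝ) * J.dd 0 0 * J.e₁ + (29 : ℝ) * J.dd 0 1 * J.dd 0 1 +
      (2 : ℝ) * J.dd 0 1 * J.dd 0 2 := by
  simp only [fieldK]
  simp only [dW_eq, t_eq, dl_zero, dl_one, dl_two, du_zero, du_one, du_two, so, fr_add_left, fr_add_right,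
    fr_sub_left, fr_sub_right, fr_smul_left, fr_smul_right, fr_neg_left, fr_neg_right, fr_vmv_left,
    fr_vmv_right, fr_one_left, fr_one_right, trace_add, trace_sub, trace_neg, trace_smul,
    trace_vecMulVec, trace_one_three, add_mulVec, sub_mulVec, neg_mulVec, smul_mulVec, one_mulVec,
    mulVec_add, mulVec_sub, mulVec_smul, dot_vmv, dotProduct_add, add_dotProduct, dotProduct_sub,
    sub_dotProduct, dotProduct_neg, neg_dotProduct, dotProduct_smul, smul_dotProduct, smul_eq_mul,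
    dot_eq, hh_eq, tt_eq, h.trace_H, h.trace_C]
  simp only [h.dd_one_two, h.dd_two_one, h.hh10, h.dd10, h.hh20, h.dd20, h.hh21, h.tt010, h.tt020,
    h.tt021, h.tt100, h.tt101, h.tt102, h.tt110, h.tt120, h.tt121, h.tt200, h.tt201, h.tt202,
    h.tt210, h.tt211, h.tt212, h.tt220, h.tt221, fr_comm (J.C 0) J.H, fr_comm (J.C 1) J.H,
    fr_comm (J.C 2) J.H, fr_comm (J.C 1) (J.C 0), fr_comm (J.C 2) (J.C 0),
    fr_comm (J.C 2) (J.C 1)]
  ring

lemma fieldK_002 : J.fieldK 0 0 2 =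
      (1 : ℝ) * J.hh 0 2 + (17 / 40 : ℝ) * J.dd 0 0 * J.dd 0 2 + (-1 : ℝ) * J.dd 0 0 * J.e₂ +
      (30 : ℝ) * J.dd 0 1 * J.dd 0 2 + (3 : ℝ) * J.dd 0 2 * J.dd 0 2 := by
  simp only [fieldK]
  simp only [dW_eq, t_eq, dl_zero, dl_one, dl_two, du_zero, du_one, du_two, so, fr_add_left, fr_add_right,
    fr_sub_left, fr_sub_right, fr_smul_left, fr_smul_right, fr_neg_left, fr_neg_right, fr_vmv_left,
    fr_vmv_right, fr_one_left, fr_one_right, trace_add, trace_sub, trace_neg, trace_smul,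
    trace_vecMulVec, trace_one_three, add_mulVec, sub_mulVec, neg_mulVec, smul_mulVec, one_mulVec,
    mulVec_add, mulVec_sub, mulVec_smul, dot_vmv, dotProduct_add, add_dotProduct, dotProduct_sub,
    sub_dotProduct, dotProduct_neg, neg_dotProduct, dotProduct_smul, smul_dotProduct, smul_eq_mul,
    dot_eq, hh_eq, tt_eq, h.trace_H, h.trace_C]
  simp only [h.dd_one_two, h.dd_two_one, h.hh10, h.dd10, h.hh20, h.dd20, h.hh21, h.tt010, h.tt020,
    h.tt021, h.tt100, h.tt101, h.tt102, h.tt110, h.tt120, h.tt121, h.tt200, h.tt201, h.tt202,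
    h.tt210, h.tt211, h.tt212, h.tt220, h.tt221, fr_comm (J.C 0) J.H, fr_comm (J.C 1) J.H,
    fr_comm (J.C 2) J.H, fr_comm (J.C 1) (J.C 0), fr_comm (J.C 2) (J.C 0),
    fr_comm (J.C 2) (J.C 1)]
  ring

lemma fieldK_011 : J.fieldK 0 1 1 =
      (-1 : ℝ) * J.tt 0 1 1 + (17 / 40 : ℝ) * J.dd 0 0 * J.dd 1 1 +
      (28 : ℝ) * J.dd 0 1 * J.dd 1 1 + (-2 : ℝ) * J.dd 0 1 * J.e₁ +
      (2 : ℝ) * J.dd 0 2 * J.dd 1 1 := by
  simp only [fieldK]
  simp only [dW_eq, t_eq, dl_zero, dl_one, dl_two, du_zero, du_one, du_two, so, fr_add_left, fr_add_right,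
    fr_sub_left, fr_sub_right, fr_smul_left, fr_smul_right, fr_neg_left, fr_neg_right, fr_vmv_left,
    fr_vmv_right, fr_one_left, fr_one_right, trace_add, trace_sub, trace_neg, trace_smul,
    trace_vecMulVec, trace_one_three, add_mulVec, sub_mulVec, neg_mulVec, smul_mulVec, one_mulVec,
    mulVec_add, mulVec_sub, mulVec_smul, dot_vmv, dotProduct_add, add_dotProduct, dotProduct_sub,
    sub_dotProduct, dotProduct_neg, neg_dotProduct, dotProduct_smul, smul_dotProduct, smul_eq_mul,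
    dot_eq, hh_eq, tt_eq, h.trace_H, h.trace_C]
  simp only [h.dd_one_two, h.dd_two_one, h.hh10, h.dd10, h.hh20, h.dd20, h.hh21, h.tt010, h.tt020,
    h.tt021, h.tt100, h.tt101, h.tt102, h.tt110, h.tt120, h.tt121, h.tt200, h.tt201, h.tt202,
    h.tt210, h.tt211, h.tt212, h.tt220, h.tt221, fr_comm (J.C 0) J.H, fr_comm (J.C 1) J.H,
    fr_comm (J.C 2) J.H, fr_comm (J.C 1) (J.C 0), fr_comm (J.C 2) (J.C 0),
    fr_comm (J.C 2) (J.C 1)]
  ring

lemma fieldK_022 : J.fieldK 0 2 2 =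
      (1 : ℝ) * J.tt 0 2 2 + (17 / 40 : ℝ) * J.dd 0 0 * J.dd 2 2 +
      (30 : ℝ) * J.dd 0 1 * J.dd 2 2 + (4 : ℝ) * J.dd 0 2 * J.dd 2 2 +
      (-2 : ℝ) * J.dd 0 2 * J.e₂ := by
  simp only [fieldK]
  simp only [dW_eq, t_eq, dl_zero, dl_one, dl_two, du_zero, du_one, du_two, so, fr_add_left, fr_add_right,
    fr_sub_left, fr_sub_right, fr_smul_left, fr_smul_right, fr_neg_left, fr_neg_right, fr_vmv_left,
    fr_vmv_right, fr_one_left, fr_one_right, trace_add, trace_sub, trace_neg, trace_smul,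
    trace_vecMulVec, trace_one_three, add_mulVec, sub_mulVec, neg_mulVec, smul_mulVec, one_mulVec,
    mulVec_add, mulVec_sub, mulVec_smul, dot_vmv, dotProduct_add, add_dotProduct, dotProduct_sub,
    sub_dotProduct, dotProduct_neg, neg_dotProduct, dotProduct_smul, smul_dotProduct, smul_eq_mul,
    dot_eq, hh_eq, tt_eq, h.trace_H, h.trace_C]
  simp only [h.dd_one_two, h.dd_two_one, h.hh10, h.dd10, h.hh20, h.dd20, h.hh21, h.tt010, h.tt020,
    h.tt021, h.tt100, h.tt101, h.tt102, h.tt110, h.tt120, h.tt121, h.tt200, h.tt201, h.tt202,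
    h.tt210, h.tt211, h.tt212, h.tt220, h.tt221, fr_comm (J.C 0) J.H, fr_comm (J.C 1) J.H,
    fr_comm (J.C 2) J.H, fr_comm (J.C 1) (J.C 0), fr_comm (J.C 2) (J.C 0),
    fr_comm (J.C 2) (J.C 1)]
  ring

lemma fieldK_100 : J.fieldK 1 0 0 =
      (2 : ℝ) * J.hh 0 1 + (-1 : ℝ) * J.tt 0 0 1 + (-3 / 8 : ℝ) * J.dd 0 0 * J.dd 0 1 +
      (29 : ℝ) * J.dd 0 0 * J.dd 1 1 + (-1 : ℝ) * J.dd 0 0 * J.e₁ + (-2 : ℝ) * J.dd 0 0 * J.e₂ := by
  simp only [fieldK]
  simp only [dW_eq, t_eq, dl_zero, dl_one, dl_two, du_zero, du_one, du_two, so, fr_add_left, fr_add_right,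
    fr_sub_left, fr_sub_right, fr_smul_left, fr_smul_right, fr_neg_left, fr_neg_right, fr_vmv_left,
    fr_vmv_right, fr_one_left, fr_one_right, trace_add, trace_sub, trace_neg, trace_smul,
    trace_vecMulVec, trace_one_three, add_mulVec, sub_mulVec, neg_mulVec, smul_mulVec, one_mulVec,
    mulVec_add, mulVec_sub, mulVec_smul, dot_vmv, dotProduct_add, add_dotProduct, dotProduct_sub,
    sub_dotProduct, dotProduct_neg, neg_dotProduct, dotProduct_smul, smul_dotProduct, smul_eq_mul,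
    dot_eq, hh_eq, tt_eq, h.trace_H, h.trace_C]
  simp only [h.dd_one_two, h.dd_two_one, h.hh10, h.dd10, h.hh20, h.dd20, h.hh21, h.tt010, h.tt020,
    h.tt021, h.tt100, h.tt101, h.tt102, h.tt110, h.tt120, h.tt121, h.tt200, h.tt201, h.tt202,
    h.tt210, h.tt211, h.tt212, h.tt220, h.tt221, fr_comm (J.C 0) J.H, fr_comm (J.C 1) J.H,
    fr_comm (J.C 2) J.H, fr_comm (J.C 1) (J.C 0), fr_comm (J.C 2) (J.C 0),
    fr_comm (J.C 2) (J.C 1)]
  ring

lemma fieldK_101 : J.fieldK 1 0 1 =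
      (1 : ℝ) * J.hh 1 1 + (-1 : ℝ) * J.tt 0 1 1 + (-3 / 8 : ℝ) * J.dd 0 1 * J.dd 0 1 +
      (28 : ℝ) * J.dd 0 1 * J.dd 1 1 + (-2 : ℝ) * J.dd 0 1 * J.e₁ + (-2 : ℝ) * J.dd 0 1 * J.e₂ := by
  simp only [fieldK]
  simp only [dW_eq, t_eq, dl_zero, dl_one, dl_two, du_zero, du_one, du_two, so, fr_add_left, fr_add_right,
    fr_sub_left, fr_sub_right, fr_smul_left, fr_smul_right, fr_neg_left, fr_neg_right, fr_vmv_left,
    fr_vmv_right, fr_one_left, fr_one_right, trace_add, trace_sub, trace_neg, trace_smul,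
    trace_vecMulVec, trace_one_three, add_mulVec, sub_mulVec, neg_mulVec, smul_mulVec, one_mulVec,
    mulVec_add, mulVec_sub, mulVec_smul, dot_vmv, dotProduct_add, add_dotProduct, dotProduct_sub,
    sub_dotProduct, dotProduct_neg, neg_dotProduct, dotProduct_smul, smul_dotProduct, smul_eq_mul,
    dot_eq, hh_eq, tt_eq, h.trace_H, h.trace_C]
  simp only [h.dd_one_two, h.dd_two_one, h.hh10, h.dd10, h.hh20, h.dd20, h.hh21, h.tt010, h.tt020,
    h.tt021, h.tt100, h.tt101, h.tt102, h.tt110, h.tt120, h.tt121, h.tt200, h.tt201, h.tt202,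
    h.tt210, h.tt211, h.tt212, h.tt220, h.tt221, fr_comm (J.C 0) J.H, fr_comm (J.C 1) J.H,
    fr_comm (J.C 2) J.H, fr_comm (J.C 1) (J.C 0), fr_comm (J.C 2) (J.C 0),
    fr_comm (J.C 2) (J.C 1)]
  ring

lemma fieldK_102 : J.fieldK 1 0 2 =
      (1 : ℝ) * J.hh 1 2 + (-3 / 8 : ℝ) * J.dd 0 1 * J.dd 0 2 + (-1 : ℝ) * J.dd 0 1 * J.e₂ +
      (29 : ℝ) * J.dd 0 2 * J.dd 1 1 + (-3 : ℝ) * J.dd 0 2 * J.e₂ := by
  simp only [fieldK]
  simp only [dW_eq, t_eq, dl_zero, dl_one, dl_two, du_zero, du_one, du_two, so, fr_add_left, fr_add_right,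
    fr_sub_left, fr_sub_right, fr_smul_left, fr_smul_right, fr_neg_left, fr_neg_right, fr_vmv_left,
    fr_vmv_right, fr_one_left, fr_one_right, trace_add, trace_sub, trace_neg, trace_smul,
    trace_vecMulVec, trace_one_three, add_mulVec, sub_mulVec, neg_mulVec, smul_mulVec, one_mulVec,
    mulVec_add, mulVec_sub, mulVec_smul, dot_vmv, dotProduct_add, add_dotProduct, dotProduct_sub,
    sub_dotProduct, dotProduct_neg, neg_dotProduct, dotProduct_smul, smul_dotProduct, smul_eq_mul,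
    dot_eq, hh_eq, tt_eq, h.trace_H, h.trace_C]
  simp only [h.dd_one_two, h.dd_two_one, h.hh10, h.dd10, h.hh20, h.dd20, h.hh21, h.tt010, h.tt020,
    h.tt021, h.tt100, h.tt101, h.tt102, h.tt110, h.tt120, h.tt121, h.tt200, h.tt201, h.tt202,
    h.tt210, h.tt211, h.tt212, h.tt220, h.tt221, fr_comm (J.C 0) J.H, fr_comm (J.C 1) J.H,
    fr_comm (J.C 2) J.H, fr_comm (J.C 1) (J.C 0), fr_comm (J.C 2) (J.C 0),
    fr_comm (J.C 2) (J.C 1)]
  ring

lemma fieldK_111 : J.fieldK 1 1 1 =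
      (-1 : ℝ) * J.tt 1 1 1 + (-3 / 8 : ℝ) * J.dd 0 1 * J.dd 1 1 +
      (27 : ℝ) * J.dd 1 1 * J.dd 1 1 + (-3 : ℝ) * J.dd 1 1 * J.e₁ + (-2 : ℝ) * J.dd 1 1 * J.e₂ := by
  simp only [fieldK]
  simp only [dW_eq, t_eq, dl_zero, dl_one, dl_two, du_zero, du_one, du_two, so, fr_add_left, fr_add_right,
    fr_sub_left, fr_sub_right, fr_smul_left, fr_smul_right, fr_neg_left, fr_neg_right, fr_vmv_left,
    fr_vmv_right, fr_one_left, fr_one_right, trace_add, trace_sub, trace_neg, trace_smul,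
    trace_vecMulVec, trace_one_three, add_mulVec, sub_mulVec, neg_mulVec, smul_mulVec, one_mulVec,
    mulVec_add, mulVec_sub, mulVec_smul, dot_vmv, dotProduct_add, add_dotProduct, dotProduct_sub,
    sub_dotProduct, dotProduct_neg, neg_dotProduct, dotProduct_smul, smul_dotProduct, smul_eq_mul,
    dot_eq, hh_eq, tt_eq, h.trace_H, h.trace_C]
  simp only [h.dd_one_two, h.dd_two_one, h.hh10, h.dd10, h.hh20, h.dd20, h.hh21, h.tt010, h.tt020,
    h.tt021, h.tt100, h.tt101, h.tt102, h.tt110, h.tt120, h.tt121, h.tt200, h.tt201, h.tt202,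
    h.tt210, h.tt211, h.tt212, h.tt220, h.tt221, fr_comm (J.C 0) J.H, fr_comm (J.C 1) J.H,
    fr_comm (J.C 2) J.H, fr_comm (J.C 1) (J.C 0), fr_comm (J.C 2) (J.C 0),
    fr_comm (J.C 2) (J.C 1)]
  ring

lemma fieldK_122 : J.fieldK 1 2 2 =
      (1 : ℝ) * J.tt 1 2 2 + (-3 / 8 : ℝ) * J.dd 0 1 * J.dd 2 2 +
      (29 : ℝ) * J.dd 1 1 * J.dd 2 2 + (1 : ℝ) * J.dd 2 2 * J.e₁ + (-4 : ℝ) * J.dd 2 2 * J.e₂ +
      (-2 : ℝ) * J.e₁ * J.e₂ + (2 : ℝ) * J.e₂ * J.e₂ := by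
  simp only [fieldK]
  simp only [dW_eq, t_eq, dl_zero, dl_one, dl_two, du_zero, du_one, du_two, so, fr_add_left, fr_add_right,
    fr_sub_left, fr_sub_right, fr_smul_left, fr_smul_right, fr_neg_left, fr_neg_right, fr_vmv_left,
    fr_vmv_right, fr_one_left, fr_one_right, trace_add, trace_sub, trace_neg, trace_smul,
    trace_vecMulVec, trace_one_three, add_mulVec, sub_mulVec, neg_mulVec, smul_mulVec, one_mulVec,
    mulVec_add, mulVec_sub, mulVec_smul, dot_vmv, dotProduct_add, add_dotProduct, dotProduct_sub,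
    sub_dotProduct, dotProduct_neg, neg_dotProduct, dotProduct_smul, smul_dotProduct, smul_eq_mul,
    dot_eq, hh_eq, tt_eq, h.trace_H, h.trace_C]
  simp only [h.dd_one_two, h.dd_two_one, h.hh10, h.dd10, h.hh20, h.dd20, h.hh21, h.tt010, h.tt020,
    h.tt021, h.tt100, h.tt101, h.tt102, h.tt110, h.tt120, h.tt121, h.tt200, h.tt201, h.tt202,
    h.tt210, h.tt211, h.tt212, h.tt220, h.tt221, fr_comm (J.C 0) J.H, fr_comm (J.C 1) J.H,
    fr_comm (J.C 2) J.H, fr_comm (J.C 1) (J.C 0), fr_comm (J.C 2) (J.C 0),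
    fr_comm (J.C 2) (J.C 1)]
  ring

lemma fieldK_200 : J.fieldK 2 0 0 =
      (2 : ℝ) * J.hh 0 2 + (-1 : ℝ) * J.tt 0 0 2 + (5 / 8 : ℝ) * J.dd 0 0 * J.dd 0 2 +
      (3 : ℝ) * J.dd 0 0 * J.dd 2 2 + (30 : ℝ) * J.dd 0 0 * J.e₁ + (-33 : ℝ) * J.dd 0 0 * J.e₂ := by
  simp only [fieldK]
  simp only [dW_eq, t_eq, dl_zero, dl_one, dl_two, du_zero, du_one, du_two, so, fr_add_left, fr_add_right,
    fr_sub_left, fr_sub_right, fr_smul_left, fr_smul_right, fr_neg_left, fr_neg_right, fr_vmv_left,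
    fr_vmv_right, fr_one_left, fr_one_right, trace_add, trace_sub, trace_neg, trace_smul,
    trace_vecMulVec, trace_one_three, add_mulVec, sub_mulVec, neg_mulVec, smul_mulVec, one_mulVec,
    mulVec_add, mulVec_sub, mulVec_smul, dot_vmv, dotProduct_add, add_dotProduct, dotProduct_sub,
    sub_dotProduct, dotProduct_neg, neg_dotProduct, dotProduct_smul, smul_dotProduct, smul_eq_mul,
    dot_eq, hh_eq, tt_eq, h.trace_H, h.trace_C]
  simp only [h.dd_one_two, h.dd_two_one, h.hh10, h.dd10, h.hh20, h.dd20, h.hh21, h.tt010, h.tt020,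
    h.tt021, h.tt100, h.tt101, h.tt102, h.tt110, h.tt120, h.tt121, h.tt200, h.tt201, h.tt202,
    h.tt210, h.tt211, h.tt212, h.tt220, h.tt221, fr_comm (J.C 0) J.H, fr_comm (J.C 1) J.H,
    fr_comm (J.C 2) J.H, fr_comm (J.C 1) (J.C 0), fr_comm (J.C 2) (J.C 0),
    fr_comm (J.C 2) (J.C 1)]
  ring

lemma fieldK_201 : J.fieldK 2 0 1 =
      (1 : ℝ) * J.hh 1 2 + (-1 : ℝ) * J.tt 0 1 2 + (5 / 8 : ℝ) * J.dd 0 1 * J.dd 0 2 +
      (3 : ℝ) * J.dd 0 1 * J.dd 2 2 + (29 : ℝ) * J.dd 0 1 * J.e₁ + (-32 : ℝ) * J.dd 0 1 * J.e₂ +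
      (-1 : ℝ) * J.dd 0 2 * J.e₁ := by
  simp only [fieldK]
  simp only [dW_eq, t_eq, dl_zero, dl_one, dl_two, du_zero, du_one, du_two, so, fr_add_left, fr_add_right,
    fr_sub_left, fr_sub_right, fr_smul_left, fr_smul_right, fr_neg_left, fr_neg_right, fr_vmv_left,
    fr_vmv_right, fr_one_left, fr_one_right, trace_add, trace_sub, trace_neg, trace_smul,
    trace_vecMulVec, trace_one_three, add_mulVec, sub_mulVec, neg_mulVec, smul_mulVec, one_mulVec,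
    mulVec_add, mulVec_sub, mulVec_smul, dot_vmv, dotProduct_add, add_dotProduct, dotProduct_sub,
    sub_dotProduct, dotProduct_neg, neg_dotProduct, dotProduct_smul, smul_dotProduct, smul_eq_mul,
    dot_eq, hh_eq, tt_eq, h.trace_H, h.trace_C]
  simp only [h.dd_one_two, h.dd_two_one, h.hh10, h.dd10, h.hh20, h.dd20, h.hh21, h.tt010, h.tt020,
    h.tt021, h.tt100, h.tt101, h.tt102, h.tt110, h.tt120, h.tt121, h.tt200, h.tt201, h.tt202,
    h.tt210, h.tt211, h.tt212, h.tt220, h.tt221, fr_comm (J.C 0) J.H, fr_comm (J.C 1) J.H,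
    fr_comm (J.C 2) J.H, fr_comm (J.C 1) (J.C 0), fr_comm (J.C 2) (J.C 0),
    fr_comm (J.C 2) (J.C 1)]
  ring

lemma fieldK_202 : J.fieldK 2 0 2 =
      (1 : ℝ) * J.hh 2 2 + (5 / 8 : ℝ) * J.dd 0 2 * J.dd 0 2 + (4 : ℝ) * J.dd 0 2 * J.dd 2 2 +
      (30 : ℝ) * J.dd 0 2 * J.e₁ + (-34 : ℝ) * J.dd 0 2 * J.e₂ := by
  simp only [fieldK]
  simp only [dW_eq, t_eq, dl_zero, dl_one, dl_two, du_zero, du_one, du_two, so, fr_add_left, fr_add_right,
    fr_sub_left, fr_sub_right, fr_smul_left, fr_smul_right, fr_neg_left, fr_neg_right, fr_vmv_left,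
    fr_vmv_right, fr_one_left, fr_one_right, trace_add, trace_sub, trace_neg, trace_smul,
    trace_vecMulVec, trace_one_three, add_mulVec, sub_mulVec, neg_mulVec, smul_mulVec, one_mulVec,
    mulVec_add, mulVec_sub, mulVec_smul, dot_vmv, dotProduct_add, add_dotProduct, dotProduct_sub,
    sub_dotProduct, dotProduct_neg, neg_dotProduct, dotProduct_smul, smul_dotProduct, smul_eq_mul,
    dot_eq, hh_eq, tt_eq, h.trace_H, h.trace_C]
  simp only [h.dd_one_two, h.dd_two_one, h.hh10, h.dd10, h.hh20, h.dd20, h.hh21, h.tt010, h.tt020,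
    h.tt021, h.tt100, h.tt101, h.tt102, h.tt110, h.tt120, h.tt121, h.tt200, h.tt201, h.tt202,
    h.tt210, h.tt211, h.tt212, h.tt220, h.tt221, fr_comm (J.C 0) J.H, fr_comm (J.C 1) J.H,
    fr_comm (J.C 2) J.H, fr_comm (J.C 1) (J.C 0), fr_comm (J.C 2) (J.C 0),
    fr_comm (J.C 2) (J.C 1)]
  ring

lemma fieldK_211 : J.fieldK 2 1 1 =
      (-1 : ℝ) * J.tt 1 1 2 + (5 / 8 : ℝ) * J.dd 0 2 * J.dd 1 1 +
      (3 : ℝ) * J.dd 1 1 * J.dd 2 2 + (28 : ℝ) * J.dd 1 1 * J.e₁ + (-31 : ℝ) * J.dd 1 1 * J.e₂ +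
      (-2 : ℝ) * J.e₁ * J.e₁ + (2 : ℝ) * J.e₁ * J.e₂ := by
  simp only [fieldK]
  simp only [dW_eq, t_eq, dl_zero, dl_one, dl_two, du_zero, du_one, du_two, so, fr_add_left, fr_add_right,
    fr_sub_left, fr_sub_right, fr_smul_left, fr_smul_right, fr_neg_left, fr_neg_right, fr_vmv_left,
    fr_vmv_right, fr_one_left, fr_one_right, trace_add, trace_sub, trace_neg, trace_smul,
    trace_vecMulVec, trace_one_three, add_mulVec, sub_mulVec, neg_mulVec, smul_mulVec, one_mulVec,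
    mulVec_add, mulVec_sub, mulVec_smul, dot_vmv, dotProduct_add, add_dotProduct, dotProduct_sub,
    sub_dotProduct, dotProduct_neg, neg_dotProduct, dotProduct_smul, smul_dotProduct, smul_eq_mul,
    dot_eq, hh_eq, tt_eq, h.trace_H, h.trace_C]
  simp only [h.dd_one_two, h.dd_two_one, h.hh10, h.dd10, h.hh20, h.dd20, h.hh21, h.tt010, h.tt020,
    h.tt021, h.tt100, h.tt101, h.tt102, h.tt110, h.tt120, h.tt121, h.tt200, h.tt201, h.tt202,
    h.tt210, h.tt211, h.tt212, h.tt220, h.tt221, fr_comm (J.C 0) J.H, fr_comm (J.C 1) J.H,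
    fr_comm (J.C 2) J.H, fr_comm (J.C 1) (J.C 0), fr_comm (J.C 2) (J.C 0),
    fr_comm (J.C 2) (J.C 1)]
  ring

lemma fieldK_222 : J.fieldK 2 2 2 =
      (1 : ℝ) * J.tt 2 2 2 + (5 / 8 : ℝ) * J.dd 0 2 * J.dd 2 2 + (5 : ℝ) * J.dd 2 2 * J.dd 2 2 +
      (30 : ℝ) * J.dd 2 2 * J.e₁ + (-35 : ℝ) * J.dd 2 2 * J.e₂ := by
  simp only [fieldK]
  simp only [dW_eq, t_eq, dl_zero, dl_one, dl_two, du_zero, du_one, du_two, so, fr_add_left, fr_add_right,
    fr_sub_left, fr_sub_right, fr_smul_left, fr_smul_right, fr_neg_left, fr_neg_right, fr_vmv_left,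
    fr_vmv_right, fr_one_left, fr_one_right, trace_add, trace_sub, trace_neg, trace_smul,
    trace_vecMulVec, trace_one_three, add_mulVec, sub_mulVec, neg_mulVec, smul_mulVec, one_mulVec,
    mulVec_add, mulVec_sub, mulVec_smul, dot_vmv, dotProduct_add, add_dotProduct, dotProduct_sub,
    sub_dotProduct, dotProduct_neg, neg_dotProduct, dotProduct_smul, smul_dotProduct, smul_eq_mul,
    dot_eq, hh_eq, tt_eq, h.trace_H, h.trace_C]
  simp only [h.dd_one_two, h.dd_two_one, h.hh10, h.dd10, h.hh20, h.dd20, h.hh21, h.tt010, h.tt020,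
    h.tt021, h.tt100, h.tt101, h.tt102, h.tt110, h.tt120, h.tt121, h.tt200, h.tt201, h.tt202,
    h.tt210, h.tt211, h.tt212, h.tt220, h.tt221, fr_comm (J.C 0) J.H, fr_comm (J.C 1) J.H,
    fr_comm (J.C 2) J.H, fr_comm (J.C 1) (J.C 0), fr_comm (J.C 2) (J.C 0),
    fr_comm (J.C 2) (J.C 1)]
  ring

lemma fieldH_0 : J.fieldH 0 =
      (1 : ℝ) * fr J.H J.H + (49 / 40 : ℝ) * J.hh 0 0 + (30 : ℝ) * J.hh 0 1 +
      (2 : ℝ) * J.hh 0 2 + (-4 / 5 : ℝ) * J.tt 0 0 0 := by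
  simp only [fieldH, trace_mul_of_symm _ _ (h.C_symm 0), trace_mul_of_symm _ _ h.symH]
  simp only [dW_eq, t_eq, dl_zero, dl_one, dl_two, du_zero, du_one, du_two, so, fr_add_left, fr_add_right,
    fr_sub_left, fr_sub_right, fr_smul_left, fr_smul_right, fr_neg_left, fr_neg_right, fr_vmv_left,
    fr_vmv_right, fr_one_left, fr_one_right, trace_add, trace_sub, trace_neg, trace_smul,
    trace_vecMulVec, trace_one_three, add_mulVec, sub_mulVec, neg_mulVec, smul_mulVec, one_mulVec,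
    mulVec_add, mulVec_sub, mulVec_smul, dot_vmv, dotProduct_add, add_dotProduct, dotProduct_sub,
    sub_dotProduct, dotProduct_neg, neg_dotProduct, dotProduct_smul, smul_dotProduct, smul_eq_mul,
    dot_eq, hh_eq, tt_eq, h.trace_H, h.trace_C]
  simp only [h.dd_one_two, h.dd_two_one, h.hh10, h.dd10, h.hh20, h.dd20, h.hh21, h.tt010, h.tt020,
    h.tt021, h.tt100, h.tt101, h.tt102, h.tt110, h.tt120, h.tt121, h.tt200, h.tt201, h.tt202,
    h.tt210, h.tt211, h.tt212, h.tt220, h.tt221, fr_comm (J.C 0) J.H, fr_comm (J.C 1) J.H,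
    fr_comm (J.C 2) J.H, fr_comm (J.C 1) (J.C 0), fr_comm (J.C 2) (J.C 0),
    fr_comm (J.C 2) (J.C 1)]
  ring

lemma fieldH_1 : J.fieldH 1 =
      (49 / 40 : ℝ) * J.hh 0 1 + (29 : ℝ) * J.hh 1 1 + (2 : ℝ) * J.hh 1 2 +
      (-4 / 5 : ℝ) * J.tt 0 0 1 + (-4 / 5 : ℝ) * J.dd 0 0 * J.e₁ := by
  simp only [fieldH, trace_mul_of_symm _ _ (h.C_symm 1), trace_mul_of_symm _ _ h.symH]
  simp only [dW_eq, t_eq, dl_zero, dl_one, dl_two, du_zero, du_one, du_two, so, fr_add_left, fr_add_right,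
    fr_sub_left, fr_sub_right, fr_smul_left, fr_smul_right, fr_neg_left, fr_neg_right, fr_vmv_left,
    fr_vmv_right, fr_one_left, fr_one_right, trace_add, trace_sub, trace_neg, trace_smul,
    trace_vecMulVec, trace_one_three, add_mulVec, sub_mulVec, neg_mulVec, smul_mulVec, one_mulVec,
    mulVec_add, mulVec_sub, mulVec_smul, dot_vmv, dotProduct_add, add_dotProduct, dotProduct_sub,
    sub_dotProduct, dotProduct_neg, neg_dotProduct, dotProduct_smul, smul_dotProduct, smul_eq_mul,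
    dot_eq, hh_eq, tt_eq, h.trace_H, h.trace_C]
  simp only [h.dd_one_two, h.dd_two_one, h.hh10, h.dd10, h.hh20, h.dd20, h.hh21, h.tt010, h.tt020,
    h.tt021, h.tt100, h.tt101, h.tt102, h.tt110, h.tt120, h.tt121, h.tt200, h.tt201, h.tt202,
    h.tt210, h.tt211, h.tt212, h.tt220, h.tt221, fr_comm (J.C 0) J.H, fr_comm (J.C 1) J.H,
    fr_comm (J.C 2) J.H, fr_comm (J.C 1) (J.C 0), fr_comm (J.C 2) (J.C 0),
    fr_comm (J.C 2) (J.C 1)]
  ring

lemma fieldH_2 : J.fieldH 2 =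
      (1 : ℝ) * fr J.H (J.C 2) + (49 / 40 : ℝ) * J.hh 0 2 + (30 : ℝ) * J.hh 1 2 +
      (3 : ℝ) * J.hh 2 2 + (-4 / 5 : ℝ) * J.tt 0 0 2 + (-4 / 5 : ℝ) * J.dd 0 0 * J.e₂ := by
  simp only [fieldH, trace_mul_of_symm _ _ (h.C_symm 2), trace_mul_of_symm _ _ h.symH]
  simp only [dW_eq, t_eq, dl_zero, dl_one, dl_two, du_zero, du_one, du_two, so, fr_add_left, fr_add_right,
    fr_sub_left, fr_sub_right, fr_smul_left, fr_smul_right, fr_neg_left, fr_neg_right, fr_vmv_left,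
    fr_vmv_right, fr_one_left, fr_one_right, trace_add, trace_sub, trace_neg, trace_smul,
    trace_vecMulVec, trace_one_three, add_mulVec, sub_mulVec, neg_mulVec, smul_mulVec, one_mulVec,
    mulVec_add, mulVec_sub, mulVec_smul, dot_vmv, dotProduct_add, add_dotProduct, dotProduct_sub,
    sub_dotProduct, dotProduct_neg, neg_dotProduct, dotProduct_smul, smul_dotProduct, smul_eq_mul,
    dot_eq, hh_eq, tt_eq, h.trace_H, h.trace_C]
  simp only [h.dd_one_two, h.dd_two_one, h.hh10, h.dd10, h.hh20, h.dd20, h.hh21, h.tt010, h.tt020,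
    h.tt021, h.tt100, h.tt101, h.tt102, h.tt110, h.tt120, h.tt121, h.tt200, h.tt201, h.tt202,
    h.tt210, h.tt211, h.tt212, h.tt220, h.tt221, fr_comm (J.C 0) J.H, fr_comm (J.C 1) J.H,
    fr_comm (J.C 2) J.H, fr_comm (J.C 1) (J.C 0), fr_comm (J.C 2) (J.C 0),
    fr_comm (J.C 2) (J.C 1)]
  ring

lemma fieldT_00 : J.fieldT 0 0 =
      (-1 : ℝ) * fr (J.C 0) (J.C 0) + (2 : ℝ) * fr J.H (J.C 0) + (1 : ℝ) * J.hh 0 0 +
      (-3 / 8 : ℝ) * J.tt 0 0 0 + (30 : ℝ) * J.tt 0 0 1 + (2 : ℝ) * J.tt 0 0 2 := by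
  simp only [fieldT, trace_mul_of_symm _ _ (h.C_symm 0)]
  simp only [dW_eq, t_eq, dl_zero, dl_one, dl_two, du_zero, du_one, du_two, so, fr_add_left, fr_add_right,
    fr_sub_left, fr_sub_right, fr_smul_left, fr_smul_right, fr_neg_left, fr_neg_right, fr_vmv_left,
    fr_vmv_right, fr_one_left, fr_one_right, trace_add, trace_sub, trace_neg, trace_smul,
    trace_vecMulVec, trace_one_three, add_mulVec, sub_mulVec, neg_mulVec, smul_mulVec, one_mulVec,
    mulVec_add, mulVec_sub, mulVec_smul, dot_vmv, dotProduct_add, add_dotProduct, dotProduct_sub,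
    sub_dotProduct, dotProduct_neg, neg_dotProduct, dotProduct_smul, smul_dotProduct, smul_eq_mul,
    dot_eq, hh_eq, tt_eq, h.trace_H, h.trace_C]
  simp only [h.dd_one_two, h.dd_two_one, h.hh10, h.dd10, h.hh20, h.dd20, h.hh21, h.tt010, h.tt020,
    h.tt021, h.tt100, h.tt101, h.tt102, h.tt110, h.tt120, h.tt121, h.tt200, h.tt201, h.tt202,
    h.tt210, h.tt211, h.tt212, h.tt220, h.tt221, fr_comm (J.C 0) J.H, fr_comm (J.C 1) J.H,
    fr_comm (J.C 2) J.H, fr_comm (J.C 1) (J.C 0), fr_comm (J.C 2) (J.C 0),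
    fr_comm (J.C 2) (J.C 1)]
  ring

lemma fieldT_01 : J.fieldT 0 1 =
      (-1 : ℝ) * fr (J.C 0) (J.C 1) + (1 : ℝ) * fr J.H (J.C 1) + (1 : ℝ) * J.hh 0 1 +
      (-3 / 8 : ℝ) * J.tt 0 0 1 + (29 : ℝ) * J.tt 0 1 1 + (2 : ℝ) * J.tt 0 1 2 +
      (-1 : ℝ) * J.dd 0 0 * J.e₁ := by
  simp only [fieldT, trace_mul_of_symm _ _ (h.C_symm 0), trace_mul_of_symm _ _ (h.C_symm 1)]
  simp only [dW_eq, t_eq, dl_zero, dl_one, dl_two, du_zero, du_one, du_two, so, fr_add_left, fr_add_right,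
    fr_sub_left, fr_sub_right, fr_smul_left, fr_smul_right, fr_neg_left, fr_neg_right, fr_vmv_left,
    fr_vmv_right, fr_one_left, fr_one_right, trace_add, trace_sub, trace_neg, trace_smul,
    trace_vecMulVec, trace_one_three, add_mulVec, sub_mulVec, neg_mulVec, smul_mulVec, one_mulVec,
    mulVec_add, mulVec_sub, mulVec_smul, dot_vmv, dotProduct_add, add_dotProduct, dotProduct_sub,
    sub_dotProduct, dotProduct_neg, neg_dotProduct, dotProduct_smul, smul_dotProduct, smul_eq_mul,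
    dot_eq, hh_eq, tt_eq, h.trace_H, h.trace_C]
  simp only [h.dd_one_two, h.dd_two_one, h.hh10, h.dd10, h.hh20, h.dd20, h.hh21, h.tt010, h.tt020,
    h.tt021, h.tt100, h.tt101, h.tt102, h.tt110, h.tt120, h.tt121, h.tt200, h.tt201, h.tt202,
    h.tt210, h.tt211, h.tt212, h.tt220, h.tt221, fr_comm (J.C 0) J.H, fr_comm (J.C 1) J.H,
    fr_comm (J.C 2) J.H, fr_comm (J.C 1) (J.C 0), fr_comm (J.C 2) (J.C 0),
    fr_comm (J.C 2) (J.C 1)]
  ring

lemma fieldT_02 : J.fieldT 0 2 =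
      (1 : ℝ) * fr J.H (J.C 2) + (1 : ℝ) * J.hh 0 2 + (-3 / 8 : ℝ) * J.tt 0 0 2 +
      (30 : ℝ) * J.tt 0 1 2 + (3 : ℝ) * J.tt 0 2 2 + (-1 : ℝ) * J.dd 0 0 * J.e₂ := by
  simp only [fieldT, trace_mul_of_symm _ _ (h.C_symm 0), trace_mul_of_symm _ _ (h.C_symm 2)]
  simp only [dW_eq, t_eq, dl_zero, dl_one, dl_two, du_zero, du_one, du_two, so, fr_add_left, fr_add_right,
    fr_sub_left, fr_sub_right, fr_smul_left, fr_smul_right, fr_neg_left, fr_neg_right, fr_vmv_left,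
    fr_vmv_right, fr_one_left, fr_one_right, trace_add, trace_sub, trace_neg, trace_smul,
    trace_vecMulVec, trace_one_three, add_mulVec, sub_mulVec, neg_mulVec, smul_mulVec, one_mulVec,
    mulVec_add, mulVec_sub, mulVec_smul, dot_vmv, dotProduct_add, add_dotProduct, dotProduct_sub,
    sub_dotProduct, dotProduct_neg, neg_dotProduct, dotProduct_smul, smul_dotProduct, smul_eq_mul,
    dot_eq, hh_eq, tt_eq, h.trace_H, h.trace_C]
  simp only [h.dd_one_two, h.dd_two_one, h.hh10, h.dd10, h.hh20, h.dd20, h.hh21, h.tt010, h.tt020,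
    h.tt021, h.tt100, h.tt101, h.tt102, h.tt110, h.tt120, h.tt121, h.tt200, h.tt201, h.tt202,
    h.tt210, h.tt211, h.tt212, h.tt220, h.tt221, fr_comm (J.C 0) J.H, fr_comm (J.C 1) J.H,
    fr_comm (J.C 2) J.H, fr_comm (J.C 1) (J.C 0), fr_comm (J.C 2) (J.C 0),
    fr_comm (J.C 2) (J.C 1)]
  ring

lemma fieldT_11 : J.fieldT 1 1 =
      (-1 : ℝ) * fr (J.C 1) (J.C 1) + (1 : ℝ) * J.hh 1 1 + (-3 / 8 : ℝ) * J.tt 0 1 1 +
      (28 : ℝ) * J.tt 1 1 1 + (2 : ℝ) * J.tt 1 1 2 + (-2 : ℝ) * J.dd 0 1 * J.e₁ := by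
  simp only [fieldT, trace_mul_of_symm _ _ (h.C_symm 1)]
  simp only [dW_eq, t_eq, dl_zero, dl_one, dl_two, du_zero, du_one, du_two, so, fr_add_left, fr_add_right,
    fr_sub_left, fr_sub_right, fr_smul_left, fr_smul_right, fr_neg_left, fr_neg_right, fr_vmv_left,
    fr_vmv_right, fr_one_left, fr_one_right, trace_add, trace_sub, trace_neg, trace_smul,
    trace_vecMulVec, trace_one_three, add_mulVec, sub_mulVec, neg_mulVec, smul_mulVec, one_mulVec,
    mulVec_add, mulVec_sub, mulVec_smul, dot_vmv, dotProduct_add, add_dotProduct, dotProduct_sub,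
    sub_dotProduct, dotProduct_neg, neg_dotProduct, dotProduct_smul, smul_dotProduct, smul_eq_mul,
    dot_eq, hh_eq, tt_eq, h.trace_H, h.trace_C]
  simp only [h.dd_one_two, h.dd_two_one, h.hh10, h.dd10, h.hh20, h.dd20, h.hh21, h.tt010, h.tt020,
    h.tt021, h.tt100, h.tt101, h.tt102, h.tt110, h.tt120, h.tt121, h.tt200, h.tt201, h.tt202,
    h.tt210, h.tt211, h.tt212, h.tt220, h.tt221, fr_comm (J.C 0) J.H, fr_comm (J.C 1) J.H,
    fr_comm (J.C 2) J.H, fr_comm (J.C 1) (J.C 0), fr_comm (J.C 2) (J.C 0),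
    fr_comm (J.C 2) (J.C 1)]
  ring

lemma fieldT_12 : J.fieldT 1 2 =
      (1 : ℝ) * J.hh 1 2 + (-3 / 8 : ℝ) * J.tt 0 1 2 + (29 : ℝ) * J.tt 1 1 2 +
      (3 : ℝ) * J.tt 1 2 2 + (-1 : ℝ) * J.dd 0 1 * J.e₂ + (-1 : ℝ) * J.dd 0 2 * J.e₁ := by
  simp only [fieldT, trace_mul_of_symm _ _ (h.C_symm 1), trace_mul_of_symm _ _ (h.C_symm 2)]
  simp only [dW_eq, t_eq, dl_zero, dl_one, dl_two, du_zero, du_one, du_two, so, fr_add_left, fr_add_right,
    fr_sub_left, fr_sub_right, fr_smul_left, fr_smul_right, fr_neg_left, fr_neg_right, fr_vmv_left,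
    fr_vmv_right, fr_one_left, fr_one_right, trace_add, trace_sub, trace_neg, trace_smul,
    trace_vecMulVec, trace_one_three, add_mulVec, sub_mulVec, neg_mulVec, smul_mulVec, one_mulVec,
    mulVec_add, mulVec_sub, mulVec_smul, dot_vmv, dotProduct_add, add_dotProduct, dotProduct_sub,
    sub_dotProduct, dotProduct_neg, neg_dotProduct, dotProduct_smul, smul_dotProduct, smul_eq_mul,
    dot_eq, hh_eq, tt_eq, h.trace_H, h.trace_C]
  simp only [h.dd_one_two, h.dd_two_one, h.hh10, h.dd10, h.hh20, h.dd20, h.hh21, h.tt010, h.tt020,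
    h.tt021, h.tt100, h.tt101, h.tt102, h.tt110, h.tt120, h.tt121, h.tt200, h.tt201, h.tt202,
    h.tt210, h.tt211, h.tt212, h.tt220, h.tt221, fr_comm (J.C 0) J.H, fr_comm (J.C 1) J.H,
    fr_comm (J.C 2) J.H, fr_comm (J.C 1) (J.C 0), fr_comm (J.C 2) (J.C 0),
    fr_comm (J.C 2) (J.C 1)]
  ring

lemma fieldT_22 : J.fieldT 2 2 =
      (1 : ℝ) * fr (J.C 2) (J.C 2) + (1 : ℝ) * J.hh 2 2 + (-3 / 8 : ℝ) * J.tt 0 2 2 +
      (30 : ℝ) * J.tt 1 2 2 + (4 : ℝ) * J.tt 2 2 2 + (-2 : ℝ) * J.dd 0 2 * J.e₂ := by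
  simp only [fieldT, trace_mul_of_symm _ _ (h.C_symm 2)]
  simp only [dW_eq, t_eq, dl_zero, dl_one, dl_two, du_zero, du_one, du_two, so, fr_add_left, fr_add_right,
    fr_sub_left, fr_sub_right, fr_smul_left, fr_smul_right, fr_neg_left, fr_neg_right, fr_vmv_left,
    fr_vmv_right, fr_one_left, fr_one_right, trace_add, trace_sub, trace_neg, trace_smul,
    trace_vecMulVec, trace_one_three, add_mulVec, sub_mulVec, neg_mulVec, smul_mulVec, one_mulVec,
    mulVec_add, mulVec_sub, mulVec_smul, dot_vmv, dotProduct_add, add_dotProduct, dotProduct_sub,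
    sub_dotProduct, dotProduct_neg, neg_dotProduct, dotProduct_smul, smul_dotProduct, smul_eq_mul,
    dot_eq, hh_eq, tt_eq, h.trace_H, h.trace_C]
  simp only [h.dd_one_two, h.dd_two_one, h.hh10, h.dd10, h.hh20, h.dd20, h.hh21, h.tt010, h.tt020,
    h.tt021, h.tt100, h.tt101, h.tt102, h.tt110, h.tt120, h.tt121, h.tt200, h.tt201, h.tt202,
    h.tt210, h.tt211, h.tt212, h.tt220, h.tt221, fr_comm (J.C 0) J.H, fr_comm (J.C 1) J.H,
    fr_comm (J.C 2) J.H, fr_comm (J.C 1) (J.C 0), fr_comm (J.C 2) (J.C 0),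
    fr_comm (J.C 2) (J.C 1)]
  ring


end Jet

end

end Vale.Agent.P252.Three
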