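import Vale.Agent.P252.Rigidity.Three.Cert.Perm

/-!
# The Frobenius products of the certificate tensors, part 2 (generated)
-/

set_option linter.unusedSimpArgs false
set_option linter.unusedSectionVars false

namespace Vale.Agent.P252.Three

open Matrix Finset

noncomputable section

namespace Jet

variable {J : Jet}

variable (h : J.Valid)
include h

lemma fr_H_z01 : fr J.H (J.so 0 1) =
      (1 : ℝ) * J.hh 0 1 := by
  try simp only [dW_eq, t_eq, dl_zero, dl_one, dl_two, du_zero, du_one, du_two, so, fr_add_left, fr_add_right,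
    fr_sub_left, fr_sub_right, fr_smul_left, fr_smul_right, fr_neg_left, fr_neg_right, fr_vmv_left,
    fr_vmv_right, fr_one_left, fr_one_right, trace_add, trace_sub, trace_neg, trace_smul,
    trace_vecMulVec, trace_one_three, add_mulVec, sub_mulVec, neg_mulVec, smul_mulVec, one_mulVec,
    mulVec_add, mulVec_sub, mulVec_smul, dot_vmv, dotProduct_add, add_dotProduct, dotProduct_sub,
    sub_dotProduct, dotProduct_neg, neg_dotProduct, dotProduct_smul, smul_dotProduct, smul_eq_mul,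
    dot_eq, hh_eq, tt_eq, h.trace_H, h.trace_C]
  try simp only [h.dd_one_two, h.dd_two_one, h.hh10, h.dd10, h.hh20, h.dd20, h.hh21, h.tt010, h.tt020,
    h.tt021, h.tt100, h.tt101, h.tt102, h.tt110, h.tt120, h.tt121, h.tt200, h.tt201, h.tt202,
    h.tt210, h.tt211, h.tt212, h.tt220, h.tt221, fr_comm (J.C 0) J.H, fr_comm (J.C 1) J.H,
    fr_comm (J.C 2) J.H, fr_comm (J.C 1) (J.C 0), fr_comm (J.C 2) (J.C 0),
    fr_comm (J.C 2) (J.C 1)]
  try ring

lemma fr_H_z12 : fr J.H (J.so 1 2) =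
      (1 : ℝ) * J.hh 1 2 := by
  try simp only [dW_eq, t_eq, dl_zero, dl_one, dl_two, du_zero, du_one, du_two, so, fr_add_left, fr_add_right,
    fr_sub_left, fr_sub_right, fr_smul_left, fr_smul_right, fr_neg_left, fr_neg_right, fr_vmv_left,
    fr_vmv_right, fr_one_left, fr_one_right, trace_add, trace_sub, trace_neg, trace_smul,
    trace_vecMulVec, trace_one_three, add_mulVec, sub_mulVec, neg_mulVec, smul_mulVec, one_mulVec,
    mulVec_add, mulVec_sub, mulVec_smul, dot_vmv, dotProduct_add, add_dotProduct, dotProduct_sub,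
    sub_dotProduct, dotProduct_neg, neg_dotProduct, dotProduct_smul, smul_dotProduct, smul_eq_mul,
    dot_eq, hh_eq, tt_eq, h.trace_H, h.trace_C]
  try simp only [h.dd_one_two, h.dd_two_one, h.hh10, h.dd10, h.hh20, h.dd20, h.hh21, h.tt010, h.tt020,
    h.tt021, h.tt100, h.tt101, h.tt102, h.tt110, h.tt120, h.tt121, h.tt200, h.tt201, h.tt202,
    h.tt210, h.tt211, h.tt212, h.tt220, h.tt221, fr_comm (J.C 0) J.H, fr_comm (J.C 1) J.H,
    fr_comm (J.C 2) J.H, fr_comm (J.C 1) (J.C 0), fr_comm (J.C 2) (J.C 0),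
    fr_comm (J.C 2) (J.C 1)]
  try ring

lemma fr_H_g01 : fr J.H (J.dd 0 1 • (1 : Matrix (Fin 3) (Fin 3) ℝ)) =
      (4 / 5 : ℝ) * J.dd 0 0 * J.dd 0 1 := by
  try simp only [dW_eq, t_eq, dl_zero, dl_one, dl_two, du_zero, du_one, du_two, so, fr_add_left, fr_add_right,
    fr_sub_left, fr_sub_right, fr_smul_left, fr_smul_right, fr_neg_left, fr_neg_right, fr_vmv_left,
    fr_vmv_right, fr_one_left, fr_one_right, trace_add, trace_sub, trace_neg, trace_smul,
    trace_vecMulVec, trace_one_three, add_mulVec, sub_mulVec, neg_mulVec, smul_mulVec, one_mulVec,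
    mulVec_add, mulVec_sub, mulVec_smul, dot_vmv, dotProduct_add, add_dotProduct, dotProduct_sub,
    sub_dotProduct, dotProduct_neg, neg_dotProduct, dotProduct_smul, smul_dotProduct, smul_eq_mul,
    dot_eq, hh_eq, tt_eq, h.trace_H, h.trace_C]
  try simp only [h.dd_one_two, h.dd_two_one, h.hh10, h.dd10, h.hh20, h.dd20, h.hh21, h.tt010, h.tt020,
    h.tt021, h.tt100, h.tt101, h.tt102, h.tt110, h.tt120, h.tt121, h.tt200, h.tt201, h.tt202,
    h.tt210, h.tt211, h.tt212, h.tt220, h.tt221, fr_comm (J.C 0) J.H, fr_comm (J.C 1) J.H,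
    fr_comm (J.C 2) J.H, fr_comm (J.C 1) (J.C 0), fr_comm (J.C 2) (J.C 0),
    fr_comm (J.C 2) (J.C 1)]
  try ring

lemma fr_H_g22 : fr J.H (J.dd 2 2 • (1 : Matrix (Fin 3) (Fin 3) ℝ)) =
      (4 / 5 : ℝ) * J.dd 0 0 * J.dd 2 2 := by
  try simp only [dW_eq, t_eq, dl_zero, dl_one, dl_two, du_zero, du_one, du_two, so, fr_add_left, fr_add_right,
    fr_sub_left, fr_sub_right, fr_smul_left, fr_smul_right, fr_neg_left, fr_neg_right, fr_vmv_left,
    fr_vmv_right, fr_one_left, fr_one_right, trace_add, trace_sub, trace_neg, trace_smul,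
    trace_vecMulVec, trace_one_three, add_mulVec, sub_mulVec, neg_mulVec, smul_mulVec, one_mulVec,
    mulVec_add, mulVec_sub, mulVec_smul, dot_vmv, dotProduct_add, add_dotProduct, dotProduct_sub,
    sub_dotProduct, dotProduct_neg, neg_dotProduct, dotProduct_smul, smul_dotProduct, smul_eq_mul,
    dot_eq, hh_eq, tt_eq, h.trace_H, h.trace_C]
  try simp only [h.dd_one_two, h.dd_two_one, h.hh10, h.dd10, h.hh20, h.dd20, h.hh21, h.tt010, h.tt020,
    h.tt021, h.tt100, h.tt101, h.tt102, h.tt110, h.tt120, h.tt121, h.tt200, h.tt201, h.tt202,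
    h.tt210, h.tt211, h.tt212, h.tt220, h.tt221, fr_comm (J.C 0) J.H, fr_comm (J.C 1) J.H,
    fr_comm (J.C 2) J.H, fr_comm (J.C 1) (J.C 0), fr_comm (J.C 2) (J.C 0),
    fr_comm (J.C 2) (J.C 1)]
  try ring

lemma fr_C0_z02 : fr (J.C 0) (J.so 0 2) =
      (1 : ℝ) * J.tt 0 0 2 := by
  try simp only [dW_eq, t_eq, dl_zero, dl_one, dl_two, du_zero, du_one, du_two, so, fr_add_left, fr_add_right,
    fr_sub_left, fr_sub_right, fr_smul_left, fr_smul_right, fr_neg_left, fr_neg_right, fr_vmv_left,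
    fr_vmv_right, fr_one_left, fr_one_right, trace_add, trace_sub, trace_neg, trace_smul,
    trace_vecMulVec, trace_one_three, add_mulVec, sub_mulVec, neg_mulVec, smul_mulVec, one_mulVec,
    mulVec_add, mulVec_sub, mulVec_smul, dot_vmv, dotProduct_add, add_dotProduct, dotProduct_sub,
    sub_dotProduct, dotProduct_neg, neg_dotProduct, dotProduct_smul, smul_dotProduct, smul_eq_mul,
    dot_eq, hh_eq, tt_eq, h.trace_H, h.trace_C]
  try simp only [h.dd_one_two, h.dd_two_one, h.hh10, h.dd10, h.hh20, h.dd20, h.hh21, h.tt010, h.tt020,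
    h.tt021, h.tt100, h.tt101, h.tt102, h.tt110, h.tt120, h.tt121, h.tt200, h.tt201, h.tt202,
    h.tt210, h.tt211, h.tt212, h.tt220, h.tt221, fr_comm (J.C 0) J.H, fr_comm (J.C 1) J.H,
    fr_comm (J.C 2) J.H, fr_comm (J.C 1) (J.C 0), fr_comm (J.C 2) (J.C 0),
    fr_comm (J.C 2) (J.C 1)]
  try ring

lemma fr_C0_z22 : fr (J.C 0) (J.so 2 2) =
      (1 : ℝ) * J.tt 0 2 2 := by
  try simp only [dW_eq, t_eq, dl_zero, dl_one, dl_two, du_zero, du_one, du_two, so, fr_add_left, fr_add_right,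
    fr_sub_left, fr_sub_right, fr_smul_left, fr_smul_right, fr_neg_left, fr_neg_right, fr_vmv_left,
    fr_vmv_right, fr_one_left, fr_one_right, trace_add, trace_sub, trace_neg, trace_smul,
    trace_vecMulVec, trace_one_three, add_mulVec, sub_mulVec, neg_mulVec, smul_mulVec, one_mulVec,
    mulVec_add, mulVec_sub, mulVec_smul, dot_vmv, dotProduct_add, add_dotProduct, dotProduct_sub,
    sub_dotProduct, dotProduct_neg, neg_dotProduct, dotProduct_smul, smul_dotProduct, smul_eq_mul,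
    dot_eq, hh_eq, tt_eq, h.trace_H, h.trace_C]
  try simp only [h.dd_one_two, h.dd_two_one, h.hh10, h.dd10, h.hh20, h.dd20, h.hh21, h.tt010, h.tt020,
    h.tt021, h.tt100, h.tt101, h.tt102, h.tt110, h.tt120, h.tt121, h.tt200, h.tt201, h.tt202,
    h.tt210, h.tt211, h.tt212, h.tt220, h.tt221, fr_comm (J.C 0) J.H, fr_comm (J.C 1) J.H,
    fr_comm (J.C 2) J.H, fr_comm (J.C 1) (J.C 0), fr_comm (J.C 2) (J.C 0),
    fr_comm (J.C 2) (J.C 1)]
  try ring

lemma fr_C0_g02 : fr (J.C 0) (J.dd 0 2 • (1 : Matrix (Fin 3) (Fin 3) ℝ)) =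
      (1 : ℝ) * J.dd 0 0 * J.dd 0 2 := by
  try simp only [dW_eq, t_eq, dl_zero, dl_one, dl_two, du_zero, du_one, du_two, so, fr_add_left, fr_add_right,
    fr_sub_left, fr_sub_right, fr_smul_left, fr_smul_right, fr_neg_left, fr_neg_right, fr_vmv_left,
    fr_vmv_right, fr_one_left, fr_one_right, trace_add, trace_sub, trace_neg, trace_smul,
    trace_vecMulVec, trace_one_three, add_mulVec, sub_mulVec, neg_mulVec, smul_mulVec, one_mulVec,
    mulVec_add, mulVec_sub, mulVec_smul, dot_vmv, dotProduct_add, add_dotProduct, dotProduct_sub,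
    sub_dotProduct, dotProduct_neg, neg_dotProduct, dotProduct_smul, smul_dotProduct, smul_eq_mul,
    dot_eq, hh_eq, tt_eq, h.trace_H, h.trace_C]
  try simp only [h.dd_one_two, h.dd_two_one, h.hh10, h.dd10, h.hh20, h.dd20, h.hh21, h.tt010, h.tt020,
    h.tt021, h.tt100, h.tt101, h.tt102, h.tt110, h.tt120, h.tt121, h.tt200, h.tt201, h.tt202,
    h.tt210, h.tt211, h.tt212, h.tt220, h.tt221, fr_comm (J.C 0) J.H, fr_comm (J.C 1) J.H,
    fr_comm (J.C 2) J.H, fr_comm (J.C 1) (J.C 0), fr_comm (J.C 2) (J.C 0),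
    fr_comm (J.C 2) (J.C 1)]
  try ring

lemma fr_C1_z00 : fr (J.C 1) (J.so 0 0) =
      (1 : ℝ) * J.tt 0 0 1 := by
  try simp only [dW_eq, t_eq, dl_zero, dl_one, dl_two, du_zero, du_one, du_two, so, fr_add_left, fr_add_right,
    fr_sub_left, fr_sub_right, fr_smul_left, fr_smul_right, fr_neg_left, fr_neg_right, fr_vmv_left,
    fr_vmv_right, fr_one_left, fr_one_right, trace_add, trace_sub, trace_neg, trace_smul,
    trace_vecMulVec, trace_one_three, add_mulVec, sub_mulVec, neg_mulVec, smul_mulVec, one_mulVec,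
    mulVec_add, mulVec_sub, mulVec_smul, dot_vmv, dotProduct_add, add_dotProduct, dotProduct_sub,
    sub_dotProduct, dotProduct_neg, neg_dotProduct, dotProduct_smul, smul_dotProduct, smul_eq_mul,
    dot_eq, hh_eq, tt_eq, h.trace_H, h.trace_C]
  try simp only [h.dd_one_two, h.dd_two_one, h.hh10, h.dd10, h.hh20, h.dd20, h.hh21, h.tt010, h.tt020,
    h.tt021, h.tt100, h.tt101, h.tt102, h.tt110, h.tt120, h.tt121, h.tt200, h.tt201, h.tt202,
    h.tt210, h.tt211, h.tt212, h.tt220, h.tt221, fr_comm (J.C 0) J.H, fr_comm (J.C 1) J.H,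
    fr_comm (J.C 2) J.H, fr_comm (J.C 1) (J.C 0), fr_comm (J.C 2) (J.C 0),
    fr_comm (J.C 2) (J.C 1)]
  try ring

lemma fr_C1_z11 : fr (J.C 1) (J.so 1 1) =
      (1 : ℝ) * J.tt 1 1 1 := by
  try simp only [dW_eq, t_eq, dl_zero, dl_one, dl_two, du_zero, du_one, du_two, so, fr_add_left, fr_add_right,
    fr_sub_left, fr_sub_right, fr_smul_left, fr_smul_right, fr_neg_left, fr_neg_right, fr_vmv_left,
    fr_vmv_right, fr_one_left, fr_one_right, trace_add, trace_sub, trace_neg, trace_smul,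
    trace_vecMulVec, trace_one_three, add_mulVec, sub_mulVec, neg_mulVec, smul_mulVec, one_mulVec,
    mulVec_add, mulVec_sub, mulVec_smul, dot_vmv, dotProduct_add, add_dotProduct, dotProduct_sub,
    sub_dotProduct, dotProduct_neg, neg_dotProduct, dotProduct_smul, smul_dotProduct, smul_eq_mul,
    dot_eq, hh_eq, tt_eq, h.trace_H, h.trace_C]
  try simp only [h.dd_one_two, h.dd_two_one, h.hh10, h.dd10, h.hh20, h.dd20, h.hh21, h.tt010, h.tt020,
    h.tt021, h.tt100, h.tt101, h.tt102, h.tt110, h.tt120, h.tt121, h.tt200, h.tt201, h.tt202,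
    h.tt210, h.tt211, h.tt212, h.tt220, h.tt221, fr_comm (J.C 0) J.H, fr_comm (J.C 1) J.H,
    fr_comm (J.C 2) J.H, fr_comm (J.C 1) (J.C 0), fr_comm (J.C 2) (J.C 0),
    fr_comm (J.C 2) (J.C 1)]
  try ring

lemma fr_C1_g00 : fr (J.C 1) (J.dd 0 0 • (1 : Matrix (Fin 3) (Fin 3) ℝ)) =
      (1 : ℝ) * J.dd 0 0 * J.dd 0 1 := by
  try simp only [dW_eq, t_eq, dl_zero, dl_one, dl_two, du_zero, du_one, du_two, so, fr_add_left, fr_add_right,
    fr_sub_left, fr_sub_right, fr_smul_left, fr_smul_right, fr_neg_left, fr_neg_right, fr_vmv_left,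
    fr_vmv_right, fr_one_left, fr_one_right, trace_add, trace_sub, trace_neg, trace_smul,
    trace_vecMulVec, trace_one_three, add_mulVec, sub_mulVec, neg_mulVec, smul_mulVec, one_mulVec,
    mulVec_add, mulVec_sub, mulVec_smul, dot_vmv, dotProduct_add, add_dotProduct, dotProduct_sub,
    sub_dotProduct, dotProduct_neg, neg_dotProduct, dotProduct_smul, smul_dotProduct, smul_eq_mul,
    dot_eq, hh_eq, tt_eq, h.trace_H, h.trace_C]
  try simp only [h.dd_one_two, h.dd_two_one, h.hh10, h.dd10, h.hh20, h.dd20, h.hh21, h.tt010, h.tt020,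
    h.tt021, h.tt100, h.tt101, h.tt102, h.tt110, h.tt120, h.tt121, h.tt200, h.tt201, h.tt202,
    h.tt210, h.tt211, h.tt212, h.tt220, h.tt221, fr_comm (J.C 0) J.H, fr_comm (J.C 1) J.H,
    fr_comm (J.C 2) J.H, fr_comm (J.C 1) (J.C 0), fr_comm (J.C 2) (J.C 0),
    fr_comm (J.C 2) (J.C 1)]
  try ring

lemma fr_C1_g11 : fr (J.C 1) (J.dd 1 1 • (1 : Matrix (Fin 3) (Fin 3) ℝ)) =
      (1 : ℝ) * J.dd 0 1 * J.dd 1 1 := by
  try simp only [dW_eq, t_eq, dl_zero, dl_one, dl_two, du_zero, du_one, du_two, so, fr_add_left, fr_add_right,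
    fr_sub_left, fr_sub_right, fr_smul_left, fr_smul_right, fr_neg_left, fr_neg_right, fr_vmv_left,
    fr_vmv_right, fr_one_left, fr_one_right, trace_add, trace_sub, trace_neg, trace_smul,
    trace_vecMulVec, trace_one_three, add_mulVec, sub_mulVec, neg_mulVec, smul_mulVec, one_mulVec,
    mulVec_add, mulVec_sub, mulVec_smul, dot_vmv, dotProduct_add, add_dotProduct, dotProduct_sub,
    sub_dotProduct, dotProduct_neg, neg_dotProduct, dotProduct_smul, smul_dotProduct, smul_eq_mul,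
    dot_eq, hh_eq, tt_eq, h.trace_H, h.trace_C]
  try simp only [h.dd_one_two, h.dd_two_one, h.hh10, h.dd10, h.hh20, h.dd20, h.hh21, h.tt010, h.tt020,
    h.tt021, h.tt100, h.tt101, h.tt102, h.tt110, h.tt120, h.tt121, h.tt200, h.tt201, h.tt202,
    h.tt210, h.tt211, h.tt212, h.tt220, h.tt221, fr_comm (J.C 0) J.H, fr_comm (J.C 1) J.H,
    fr_comm (J.C 2) J.H, fr_comm (J.C 1) (J.C 0), fr_comm (J.C 2) (J.C 0),
    fr_comm (J.C 2) (J.C 1)]
  try ring

lemma fr_C2_z01 : fr (J.C 2) (J.so 0 1) =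
      (1 : ℝ) * J.tt 0 1 2 := by
  try simp only [dW_eq, t_eq, dl_zero, dl_one, dl_two, du_zero, du_one, du_two, so, fr_add_left, fr_add_right,
    fr_sub_left, fr_sub_right, fr_smul_left, fr_smul_right, fr_neg_left, fr_neg_right, fr_vmv_left,
    fr_vmv_right, fr_one_left, fr_one_right, trace_add, trace_sub, trace_neg, trace_smul,
    trace_vecMulVec, trace_one_three, add_mulVec, sub_mulVec, neg_mulVec, smul_mulVec, one_mulVec,
    mulVec_add, mulVec_sub, mulVec_smul, dot_vmv, dotProduct_add, add_dotProduct, dotProduct_sub,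
    sub_dotProduct, dotProduct_neg, neg_dotProduct, dotProduct_smul, smul_dotProduct, smul_eq_mul,
    dot_eq, hh_eq, tt_eq, h.trace_H, h.trace_C]
  try simp only [h.dd_one_two, h.dd_two_one, h.hh10, h.dd10, h.hh20, h.dd20, h.hh21, h.tt010, h.tt020,
    h.tt021, h.tt100, h.tt101, h.tt102, h.tt110, h.tt120, h.tt121, h.tt200, h.tt201, h.tt202,
    h.tt210, h.tt211, h.tt212, h.tt220, h.tt221, fr_comm (J.C 0) J.H, fr_comm (J.C 1) J.H,
    fr_comm (J.C 2) J.H, fr_comm (J.C 1) (J.C 0), fr_comm (J.C 2) (J.C 0),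
    fr_comm (J.C 2) (J.C 1)]
  try ring

lemma fr_C2_z12 : fr (J.C 2) (J.so 1 2) =
      (1 : ℝ) * J.tt 1 2 2 := by
  try simp only [dW_eq, t_eq, dl_zero, dl_one, dl_two, du_zero, du_one, du_two, so, fr_add_left, fr_add_right,
    fr_sub_left, fr_sub_right, fr_smul_left, fr_smul_right, fr_neg_left, fr_neg_right, fr_vmv_left,
    fr_vmv_right, fr_one_left, fr_one_right, trace_add, trace_sub, trace_neg, trace_smul,
    trace_vecMulVec, trace_one_three, add_mulVec, sub_mulVec, neg_mulVec, smul_mulVec, one_mulVec,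
    mulVec_add, mulVec_sub, mulVec_smul, dot_vmv, dotProduct_add, add_dotProduct, dotProduct_sub,
    sub_dotProduct, dotProduct_neg, neg_dotProduct, dotProduct_smul, smul_dotProduct, smul_eq_mul,
    dot_eq, hh_eq, tt_eq, h.trace_H, h.trace_C]
  try simp only [h.dd_one_two, h.dd_two_one, h.hh10, h.dd10, h.hh20, h.dd20, h.hh21, h.tt010, h.tt020,
    h.tt021, h.tt100, h.tt101, h.tt102, h.tt110, h.tt120, h.tt121, h.tt200, h.tt201, h.tt202,
    h.tt210, h.tt211, h.tt212, h.tt220, h.tt221, fr_comm (J.C 0) J.H, fr_comm (J.C 1) J.H,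
    fr_comm (J.C 2) J.H, fr_comm (J.C 1) (J.C 0), fr_comm (J.C 2) (J.C 0),
    fr_comm (J.C 2) (J.C 1)]
  try ring

lemma fr_C2_g01 : fr (J.C 2) (J.dd 0 1 • (1 : Matrix (Fin 3) (Fin 3) ℝ)) =
      (1 : ℝ) * J.dd 0 1 * J.dd 0 2 := by
  try simp only [dW_eq, t_eq, dl_zero, dl_one, dl_two, du_zero, du_one, du_two, so, fr_add_left, fr_add_right,
    fr_sub_left, fr_sub_right, fr_smul_left, fr_smul_right, fr_neg_left, fr_neg_right, fr_vmv_left,
    fr_vmv_right, fr_one_left, fr_one_right, trace_add, trace_sub, trace_neg, trace_smul,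
    trace_vecMulVec, trace_one_three, add_mulVec, sub_mulVec, neg_mulVec, smul_mulVec, one_mulVec,
    mulVec_add, mulVec_sub, mulVec_smul, dot_vmv, dotProduct_add, add_dotProduct, dotProduct_sub,
    sub_dotProduct, dotProduct_neg, neg_dotProduct, dotProduct_smul, smul_dotProduct, smul_eq_mul,
    dot_eq, hh_eq, tt_eq, h.trace_H, h.trace_C]
  try simp only [h.dd_one_two, h.dd_two_one, h.hh10, h.dd10, h.hh20, h.dd20, h.hh21, h.tt010, h.tt020,
    h.tt021, h.tt100, h.tt101, h.tt102, h.tt110, h.tt120, h.tt121, h.tt200, h.tt201, h.tt202,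
    h.tt210, h.tt211, h.tt212, h.tt220, h.tt221, fr_comm (J.C 0) J.H, fr_comm (J.C 1) J.H,
    fr_comm (J.C 2) J.H, fr_comm (J.C 1) (J.C 0), fr_comm (J.C 2) (J.C 0),
    fr_comm (J.C 2) (J.C 1)]
  try ring

lemma fr_C2_g22 : fr (J.C 2) (J.dd 2 2 • (1 : Matrix (Fin 3) (Fin 3) ℝ)) =
      (1 : ℝ) * J.dd 0 2 * J.dd 2 2 := by
  try simp only [dW_eq, t_eq, dl_zero, dl_one, dl_two, du_zero, du_one, du_two, so, fr_add_left, fr_add_right,
    fr_sub_left, fr_sub_right, fr_smul_left, fr_smul_right, fr_neg_left, fr_neg_right, fr_vmv_left,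
    fr_vmv_right, fr_one_left, fr_one_right, trace_add, trace_sub, trace_neg, trace_smul,
    trace_vecMulVec, trace_one_three, add_mulVec, sub_mulVec, neg_mulVec, smul_mulVec, one_mulVec,
    mulVec_add, mulVec_sub, mulVec_smul, dot_vmv, dotProduct_add, add_dotProduct, dotProduct_sub,
    sub_dotProduct, dotProduct_neg, neg_dotProduct, dotProduct_smul, smul_dotProduct, smul_eq_mul,
    dot_eq, hh_eq, tt_eq, h.trace_H, h.trace_C]
  try simp only [h.dd_one_two, h.dd_two_one, h.hh10, h.dd10, h.hh20, h.dd20, h.hh21, h.tt010, h.tt020,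
    h.tt021, h.tt100, h.tt101, h.tt102, h.tt110, h.tt120, h.tt121, h.tt200, h.tt201, h.tt202,
    h.tt210, h.tt211, h.tt212, h.tt220, h.tt221, fr_comm (J.C 0) J.H, fr_comm (J.C 1) J.H,
    fr_comm (J.C 2) J.H, fr_comm (J.C 1) (J.C 0), fr_comm (J.C 2) (J.C 0),
    fr_comm (J.C 2) (J.C 1)]
  try ring

lemma fr_z00_z02 : fr (J.so 0 0) (J.so 0 2) =
      (1 : ℝ) * J.dd 0 0 * J.dd 0 2 := by
  try simp only [dW_eq, t_eq, dl_zero, dl_one, dl_two, du_zero, du_one, du_two, so, fr_add_left, fr_add_right,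
    fr_sub_left, fr_sub_right, fr_smul_left, fr_smul_right, fr_neg_left, fr_neg_right, fr_vmv_left,
    fr_vmv_right, fr_one_left, fr_one_right, trace_add, trace_sub, trace_neg, trace_smul,
    trace_vecMulVec, trace_one_three, add_mulVec, sub_mulVec, neg_mulVec, smul_mulVec, one_mulVec,
    mulVec_add, mulVec_sub, mulVec_smul, dot_vmv, dotProduct_add, add_dotProduct, dotProduct_sub,
    sub_dotProduct, dotProduct_neg, neg_dotProduct, dotProduct_smul, smul_dotProduct, smul_eq_mul,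
    dot_eq, hh_eq, tt_eq, h.trace_H, h.trace_C]
  try simp only [h.dd_one_two, h.dd_two_one, h.hh10, h.dd10, h.hh20, h.dd20, h.hh21, h.tt010, h.tt020,
    h.tt021, h.tt100, h.tt101, h.tt102, h.tt110, h.tt120, h.tt121, h.tt200, h.tt201, h.tt202,
    h.tt210, h.tt211, h.tt212, h.tt220, h.tt221, fr_comm (J.C 0) J.H, fr_comm (J.C 1) J.H,
    fr_comm (J.C 2) J.H, fr_comm (J.C 1) (J.C 0), fr_comm (J.C 2) (J.C 0),
    fr_comm (J.C 2) (J.C 1)]
  try ring

lemma fr_z00_z22 : fr (J.so 0 0) (J.so 2 2) =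
      (1 : ℝ) * J.dd 0 2 * J.dd 0 2 := by
  try simp only [dW_eq, t_eq, dl_zero, dl_one, dl_two, du_zero, du_one, du_two, so, fr_add_left, fr_add_right,
    fr_sub_left, fr_sub_right, fr_smul_left, fr_smul_right, fr_neg_left, fr_neg_right, fr_vmv_left,
    fr_vmv_right, fr_one_left, fr_one_right, trace_add, trace_sub, trace_neg, trace_smul,
    trace_vecMulVec, trace_one_three, add_mulVec, sub_mulVec, neg_mulVec, smul_mulVec, one_mulVec,
    mulVec_add, mulVec_sub, mulVec_smul, dot_vmv, dotProduct_add, add_dotProduct, dotProduct_sub,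
    sub_dotProduct, dotProduct_neg, neg_dotProduct, dotProduct_smul, smul_dotProduct, smul_eq_mul,
    dot_eq, hh_eq, tt_eq, h.trace_H, h.trace_C]
  try simp only [h.dd_one_two, h.dd_two_one, h.hh10, h.dd10, h.hh20, h.dd20, h.hh21, h.tt010, h.tt020,
    h.tt021, h.tt100, h.tt101, h.tt102, h.tt110, h.tt120, h.tt121, h.tt200, h.tt201, h.tt202,
    h.tt210, h.tt211, h.tt212, h.tt220, h.tt221, fr_comm (J.C 0) J.H, fr_comm (J.C 1) J.H,
    fr_comm (J.C 2) J.H, fr_comm (J.C 1) (J.C 0), fr_comm (J.C 2) (J.C 0),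
    fr_comm (J.C 2) (J.C 1)]
  try ring

lemma fr_z00_g02 : fr (J.so 0 0) (J.dd 0 2 • (1 : Matrix (Fin 3) (Fin 3) ℝ)) =
      (1 : ℝ) * J.dd 0 0 * J.dd 0 2 := by
  try simp only [dW_eq, t_eq, dl_zero, dl_one, dl_two, du_zero, du_one, du_two, so, fr_add_left, fr_add_right,
    fr_sub_left, fr_sub_right, fr_smul_left, fr_smul_right, fr_neg_left, fr_neg_right, fr_vmv_left,
    fr_vmv_right, fr_one_left, fr_one_right, trace_add, trace_sub, trace_neg, trace_smul,
    trace_vecMulVec, trace_one_three, add_mulVec, sub_mulVec, neg_mulVec, smul_mulVec, one_mulVec,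
    mulVec_add, mulVec_sub, mulVec_smul, dot_vmv, dotProduct_add, add_dotProduct, dotProduct_sub,
    sub_dotProduct, dotProduct_neg, neg_dotProduct, dotProduct_smul, smul_dotProduct, smul_eq_mul,
    dot_eq, hh_eq, tt_eq, h.trace_H, h.trace_C]
  try simp only [h.dd_one_two, h.dd_two_one, h.hh10, h.dd10, h.hh20, h.dd20, h.hh21, h.tt010, h.tt020,
    h.tt021, h.tt100, h.tt101, h.tt102, h.tt110, h.tt120, h.tt121, h.tt200, h.tt201, h.tt202,
    h.tt210, h.tt211, h.tt212, h.tt220, h.tt221, fr_comm (J.C 0) J.H, fr_comm (J.C 1) J.H,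
    fr_comm (J.C 2) J.H, fr_comm (J.C 1) (J.C 0), fr_comm (J.C 2) (J.C 0),
    fr_comm (J.C 2) (J.C 1)]
  try ring

lemma fr_z01_z01 : fr (J.so 0 1) (J.so 0 1) =
      (1 / 2 : ℝ) * J.dd 0 0 * J.dd 1 1 + (1 / 2 : ℝ) * J.dd 0 1 * J.dd 0 1 := by
  try simp only [dW_eq, t_eq, dl_zero, dl_one, dl_two, du_zero, du_one, du_two, so, fr_add_left, fr_add_right,
    fr_sub_left, fr_sub_right, fr_smul_left, fr_smul_right, fr_neg_left, fr_neg_right, fr_vmv_left,
    fr_vmv_right, fr_one_left, fr_one_right, trace_add, trace_sub, trace_neg, trace_smul,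
    trace_vecMulVec, trace_one_three, add_mulVec, sub_mulVec, neg_mulVec, smul_mulVec, one_mulVec,
    mulVec_add, mulVec_sub, mulVec_smul, dot_vmv, dotProduct_add, add_dotProduct, dotProduct_sub,
    sub_dotProduct, dotProduct_neg, neg_dotProduct, dotProduct_smul, smul_dotProduct, smul_eq_mul,
    dot_eq, hh_eq, tt_eq, h.trace_H, h.trace_C]
  try simp only [h.dd_one_two, h.dd_two_one, h.hh10, h.dd10, h.hh20, h.dd20, h.hh21, h.tt010, h.tt020,
    h.tt021, h.tt100, h.tt101, h.tt102, h.tt110, h.tt120, h.tt121, h.tt200, h.tt201, h.tt202,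
    h.tt210, h.tt211, h.tt212, h.tt220, h.tt221, fr_comm (J.C 0) J.H, fr_comm (J.C 1) J.H,
    fr_comm (J.C 2) J.H, fr_comm (J.C 1) (J.C 0), fr_comm (J.C 2) (J.C 0),
    fr_comm (J.C 2) (J.C 1)]
  try ring

lemma fr_z01_z12 : fr (J.so 0 1) (J.so 1 2) =
      (1 / 2 : ℝ) * J.dd 0 1 * J.e₁ + (-1 / 2 : ℝ) * J.dd 0 1 * J.e₂ +
      (1 / 2 : ℝ) * J.dd 0 2 * J.dd 1 1 := by
  try simp only [dW_eq, t_eq, dl_zero, dl_one, dl_two, du_zero, du_one, du_two, so, fr_add_left, fr_add_right,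
    fr_sub_left, fr_sub_right, fr_smul_left, fr_smul_right, fr_neg_left, fr_neg_right, fr_vmv_left,
    fr_vmv_right, fr_one_left, fr_one_right, trace_add, trace_sub, trace_neg, trace_smul,
    trace_vecMulVec, trace_one_three, add_mulVec, sub_mulVec, neg_mulVec, smul_mulVec, one_mulVec,
    mulVec_add, mulVec_sub, mulVec_smul, dot_vmv, dotProduct_add, add_dotProduct, dotProduct_sub,
    sub_dotProduct, dotProduct_neg, neg_dotProduct, dotProduct_smul, smul_dotProduct, smul_eq_mul,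
    dot_eq, hh_eq, tt_eq, h.trace_H, h.trace_C]
  try simp only [h.dd_one_two, h.dd_two_one, h.hh10, h.dd10, h.hh20, h.dd20, h.hh21, h.tt010, h.tt020,
    h.tt021, h.tt100, h.tt101, h.tt102, h.tt110, h.tt120, h.tt121, h.tt200, h.tt201, h.tt202,
    h.tt210, h.tt211, h.tt212, h.tt220, h.tt221, fr_comm (J.C 0) J.H, fr_comm (J.C 1) J.H,
    fr_comm (J.C 2) J.H, fr_comm (J.C 1) (J.C 0), fr_comm (J.C 2) (J.C 0),
    fr_comm (J.C 2) (J.C 1)]
  try ring

lemma fr_z01_g01 : fr (J.so 0 1) (J.dd 0 1 • (1 : Matrix (Fin 3) (Fin 3) ℝ)) =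
      (1 : ℝ) * J.dd 0 1 * J.dd 0 1 := by
  try simp only [dW_eq, t_eq, dl_zero, dl_one, dl_two, du_zero, du_one, du_two, so, fr_add_left, fr_add_right,
    fr_sub_left, fr_sub_right, fr_smul_left, fr_smul_right, fr_neg_left, fr_neg_right, fr_vmv_left,
    fr_vmv_right, fr_one_left, fr_one_right, trace_add, trace_sub, trace_neg, trace_smul,
    trace_vecMulVec, trace_one_three, add_mulVec, sub_mulVec, neg_mulVec, smul_mulVec, one_mulVec,
    mulVec_add, mulVec_sub, mulVec_smul, dot_vmv, dotProduct_add, add_dotProduct, dotProduct_sub,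
    sub_dotProduct, dotProduct_neg, neg_dotProduct, dotProduct_smul, smul_dotProduct, smul_eq_mul,
    dot_eq, hh_eq, tt_eq, h.trace_H, h.trace_C]
  try simp only [h.dd_one_two, h.dd_two_one, h.hh10, h.dd10, h.hh20, h.dd20, h.hh21, h.tt010, h.tt020,
    h.tt021, h.tt100, h.tt101, h.tt102, h.tt110, h.tt120, h.tt121, h.tt200, h.tt201, h.tt202,
    h.tt210, h.tt211, h.tt212, h.tt220, h.tt221, fr_comm (J.C 0) J.H, fr_comm (J.C 1) J.H,
    fr_comm (J.C 2) J.H, fr_comm (J.C 1) (J.C 0), fr_comm (J.C 2) (J.C 0),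
    fr_comm (J.C 2) (J.C 1)]
  try ring

lemma fr_z01_g22 : fr (J.so 0 1) (J.dd 2 2 • (1 : Matrix (Fin 3) (Fin 3) ℝ)) =
      (1 : ℝ) * J.dd 0 1 * J.dd 2 2 := by
  try simp only [dW_eq, t_eq, dl_zero, dl_one, dl_two, du_zero, du_one, du_two, so, fr_add_left, fr_add_right,
    fr_sub_left, fr_sub_right, fr_smul_left, fr_smul_right, fr_neg_left, fr_neg_right, fr_vmv_left,
    fr_vmv_right, fr_one_left, fr_one_right, trace_add, trace_sub, trace_neg, trace_smul,
    trace_vecMulVec, trace_one_three, add_mulVec, sub_mulVec, neg_mulVec, smul_mulVec, one_mulVec,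
    mulVec_add, mulVec_sub, mulVec_smul, dot_vmv, dotProduct_add, add_dotProduct, dotProduct_sub,
    sub_dotProduct, dotProduct_neg, neg_dotProduct, dotProduct_smul, smul_dotProduct, smul_eq_mul,
    dot_eq, hh_eq, tt_eq, h.trace_H, h.trace_C]
  try simp only [h.dd_one_two, h.dd_two_one, h.hh10, h.dd10, h.hh20, h.dd20, h.hh21, h.tt010, h.tt020,
    h.tt021, h.tt100, h.tt101, h.tt102, h.tt110, h.tt120, h.tt121, h.tt200, h.tt201, h.tt202,
    h.tt210, h.tt211, h.tt212, h.tt220, h.tt221, fr_comm (J.C 0) J.H, fr_comm (J.C 1) J.H,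
    fr_comm (J.C 2) J.H, fr_comm (J.C 1) (J.C 0), fr_comm (J.C 2) (J.C 0),
    fr_comm (J.C 2) (J.C 1)]
  try ring

lemma fr_z02_z12 : fr (J.so 0 2) (J.so 1 2) =
      (1 / 2 : ℝ) * J.dd 0 1 * J.dd 2 2 + (1 / 2 : ℝ) * J.dd 0 2 * J.e₁ +
      (-1 / 2 : ℝ) * J.dd 0 2 * J.e₂ := by
  try simp only [dW_eq, t_eq, dl_zero, dl_one, dl_two, du_zero, du_one, du_two, so, fr_add_left, fr_add_right,
    fr_sub_left, fr_sub_right, fr_smul_left, fr_smul_right, fr_neg_left, fr_neg_right, fr_vmv_left,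
    fr_vmv_right, fr_one_left, fr_one_right, trace_add, trace_sub, trace_neg, trace_smul,
    trace_vecMulVec, trace_one_three, add_mulVec, sub_mulVec, neg_mulVec, smul_mulVec, one_mulVec,
    mulVec_add, mulVec_sub, mulVec_smul, dot_vmv, dotProduct_add, add_dotProduct, dotProduct_sub,
    sub_dotProduct, dotProduct_neg, neg_dotProduct, dotProduct_smul, smul_dotProduct, smul_eq_mul,
    dot_eq, hh_eq, tt_eq, h.trace_H, h.trace_C]
  try simp only [h.dd_one_two, h.dd_two_one, h.hh10, h.dd10, h.hh20, h.dd20, h.hh21, h.tt010, h.tt020,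
    h.tt021, h.tt100, h.tt101, h.tt102, h.tt110, h.tt120, h.tt121, h.tt200, h.tt201, h.tt202,
    h.tt210, h.tt211, h.tt212, h.tt220, h.tt221, fr_comm (J.C 0) J.H, fr_comm (J.C 1) J.H,
    fr_comm (J.C 2) J.H, fr_comm (J.C 1) (J.C 0), fr_comm (J.C 2) (J.C 0),
    fr_comm (J.C 2) (J.C 1)]
  try ring

lemma fr_z02_g01 : fr (J.so 0 2) (J.dd 0 1 • (1 : Matrix (Fin 3) (Fin 3) ℝ)) =
      (1 : ℝ) * J.dd 0 1 * J.dd 0 2 := by
  try simp only [dW_eq, t_eq, dl_zero, dl_one, dl_two, du_zero, du_one, du_two, so, fr_add_left, fr_add_right,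
    fr_sub_left, fr_sub_right, fr_smul_left, fr_smul_right, fr_neg_left, fr_neg_right, fr_vmv_left,
    fr_vmv_right, fr_one_left, fr_one_right, trace_add, trace_sub, trace_neg, trace_smul,
    trace_vecMulVec, trace_one_three, add_mulVec, sub_mulVec, neg_mulVec, smul_mulVec, one_mulVec,
    mulVec_add, mulVec_sub, mulVec_smul, dot_vmv, dotProduct_add, add_dotProduct, dotProduct_sub,
    sub_dotProduct, dotProduct_neg, neg_dotProduct, dotProduct_smul, smul_dotProduct, smul_eq_mul,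
    dot_eq, hh_eq, tt_eq, h.trace_H, h.trace_C]
  try simp only [h.dd_one_two, h.dd_two_one, h.hh10, h.dd10, h.hh20, h.dd20, h.hh21, h.tt010, h.tt020,
    h.tt021, h.tt100, h.tt101, h.tt102, h.tt110, h.tt120, h.tt121, h.tt200, h.tt201, h.tt202,
    h.tt210, h.tt211, h.tt212, h.tt220, h.tt221, fr_comm (J.C 0) J.H, fr_comm (J.C 1) J.H,
    fr_comm (J.C 2) J.H, fr_comm (J.C 1) (J.C 0), fr_comm (J.C 2) (J.C 0),
    fr_comm (J.C 2) (J.C 1)]
  try ring

lemma fr_z02_g22 : fr (J.so 0 2) (J.dd 2 2 • (1 : Matrix (Fin 3) (Fin 3) ℝ)) =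
      (1 : ℝ) * J.dd 0 2 * J.dd 2 2 := by
  try simp only [dW_eq, t_eq, dl_zero, dl_one, dl_two, du_zero, du_one, du_two, so, fr_add_left, fr_add_right,
    fr_sub_left, fr_sub_right, fr_smul_left, fr_smul_right, fr_neg_left, fr_neg_right, fr_vmv_left,
    fr_vmv_right, fr_one_left, fr_one_right, trace_add, trace_sub, trace_neg, trace_smul,
    trace_vecMulVec, trace_one_three, add_mulVec, sub_mulVec, neg_mulVec, smul_mulVec, one_mulVec,
    mulVec_add, mulVec_sub, mulVec_smul, dot_vmv, dotProduct_add, add_dotProduct, dotProduct_sub,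
    sub_dotProduct, dotProduct_neg, neg_dotProduct, dotProduct_smul, smul_dotProduct, smul_eq_mul,
    dot_eq, hh_eq, tt_eq, h.trace_H, h.trace_C]
  try simp only [h.dd_one_two, h.dd_two_one, h.hh10, h.dd10, h.hh20, h.dd20, h.hh21, h.tt010, h.tt020,
    h.tt021, h.tt100, h.tt101, h.tt102, h.tt110, h.tt120, h.tt121, h.tt200, h.tt201, h.tt202,
    h.tt210, h.tt211, h.tt212, h.tt220, h.tt221, fr_comm (J.C 0) J.H, fr_comm (J.C 1) J.H,
    fr_comm (J.C 2) J.H, fr_comm (J.C 1) (J.C 0), fr_comm (J.C 2) (J.C 0),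
    fr_comm (J.C 2) (J.C 1)]
  try ring

lemma fr_z11_z22 : fr (J.so 1 1) (J.so 2 2) =
      (1 : ℝ) * J.e₁ * J.e₁ + (-2 : ℝ) * J.e₁ * J.e₂ + (1 : ℝ) * J.e₂ * J.e₂ := by
  try simp only [dW_eq, t_eq, dl_zero, dl_one, dl_two, du_zero, du_one, du_two, so, fr_add_left, fr_add_right,
    fr_sub_left, fr_sub_right, fr_smul_left, fr_smul_right, fr_neg_left, fr_neg_right, fr_vmv_left,
    fr_vmv_right, fr_one_left, fr_one_right, trace_add, trace_sub, trace_neg, trace_smul,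
    trace_vecMulVec, trace_one_three, add_mulVec, sub_mulVec, neg_mulVec, smul_mulVec, one_mulVec,
    mulVec_add, mulVec_sub, mulVec_smul, dot_vmv, dotProduct_add, add_dotProduct, dotProduct_sub,
    sub_dotProduct, dotProduct_neg, neg_dotProduct, dotProduct_smul, smul_dotProduct, smul_eq_mul,
    dot_eq, hh_eq, tt_eq, h.trace_H, h.trace_C]
  try simp only [h.dd_one_two, h.dd_two_one, h.hh10, h.dd10, h.hh20, h.dd20, h.hh21, h.tt010, h.tt020,
    h.tt021, h.tt100, h.tt101, h.tt102, h.tt110, h.tt120, h.tt121, h.tt200, h.tt201, h.tt202,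
    h.tt210, h.tt211, h.tt212, h.tt220, h.tt221, fr_comm (J.C 0) J.H, fr_comm (J.C 1) J.H,
    fr_comm (J.C 2) J.H, fr_comm (J.C 1) (J.C 0), fr_comm (J.C 2) (J.C 0),
    fr_comm (J.C 2) (J.C 1)]
  try ring

lemma fr_z11_g02 : fr (J.so 1 1) (J.dd 0 2 • (1 : Matrix (Fin 3) (Fin 3) ℝ)) =
      (1 : ℝ) * J.dd 0 2 * J.dd 1 1 := by
  try simp only [dW_eq, t_eq, dl_zero, dl_one, dl_two, du_zero, du_one, du_two, so, fr_add_left, fr_add_right,
    fr_sub_left, fr_sub_right, fr_smul_left, fr_smul_right, fr_neg_left, fr_neg_right, fr_vmv_left,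
    fr_vmv_right, fr_one_left, fr_one_right, trace_add, trace_sub, trace_neg, trace_smul,
    trace_vecMulVec, trace_one_three, add_mulVec, sub_mulVec, neg_mulVec, smul_mulVec, one_mulVec,
    mulVec_add, mulVec_sub, mulVec_smul, dot_vmv, dotProduct_add, add_dotProduct, dotProduct_sub,
    sub_dotProduct, dotProduct_neg, neg_dotProduct, dotProduct_smul, smul_dotProduct, smul_eq_mul,
    dot_eq, hh_eq, tt_eq, h.trace_H, h.trace_C]
  try simp only [h.dd_one_two, h.dd_two_one, h.hh10, h.dd10, h.hh20, h.dd20, h.hh21, h.tt010, h.tt020,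
    h.tt021, h.tt100, h.tt101, h.tt102, h.tt110, h.tt120, h.tt121, h.tt200, h.tt201, h.tt202,
    h.tt210, h.tt211, h.tt212, h.tt220, h.tt221, fr_comm (J.C 0) J.H, fr_comm (J.C 1) J.H,
    fr_comm (J.C 2) J.H, fr_comm (J.C 1) (J.C 0), fr_comm (J.C 2) (J.C 0),
    fr_comm (J.C 2) (J.C 1)]
  try ring

lemma fr_z12_z12 : fr (J.so 1 2) (J.so 1 2) =
      (1 / 2 : ℝ) * J.dd 1 1 * J.dd 2 2 + (1 / 2 : ℝ) * J.e₁ * J.e₁ + (-1 : ℝ) * J.e₁ * J.e₂ +
      (1 / 2 : ℝ) * J.e₂ * J.e₂ := by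
  try simp only [dW_eq, t_eq, dl_zero, dl_one, dl_two, du_zero, du_one, du_two, so, fr_add_left, fr_add_right,
    fr_sub_left, fr_sub_right, fr_smul_left, fr_smul_right, fr_neg_left, fr_neg_right, fr_vmv_left,
    fr_vmv_right, fr_one_left, fr_one_right, trace_add, trace_sub, trace_neg, trace_smul,
    trace_vecMulVec, trace_one_three, add_mulVec, sub_mulVec, neg_mulVec, smul_mulVec, one_mulVec,
    mulVec_add, mulVec_sub, mulVec_smul, dot_vmv, dotProduct_add, add_dotProduct, dotProduct_sub,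
    sub_dotProduct, dotProduct_neg, neg_dotProduct, dotProduct_smul, smul_dotProduct, smul_eq_mul,
    dot_eq, hh_eq, tt_eq, h.trace_H, h.trace_C]
  try simp only [h.dd_one_two, h.dd_two_one, h.hh10, h.dd10, h.hh20, h.dd20, h.hh21, h.tt010, h.tt020,
    h.tt021, h.tt100, h.tt101, h.tt102, h.tt110, h.tt120, h.tt121, h.tt200, h.tt201, h.tt202,
    h.tt210, h.tt211, h.tt212, h.tt220, h.tt221, fr_comm (J.C 0) J.H, fr_comm (J.C 1) J.H,
    fr_comm (J.C 2) J.H, fr_comm (J.C 1) (J.C 0), fr_comm (J.C 2) (J.C 0),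
    fr_comm (J.C 2) (J.C 1)]
  try ring

lemma fr_z12_g01 : fr (J.so 1 2) (J.dd 0 1 • (1 : Matrix (Fin 3) (Fin 3) ℝ)) =
      (1 : ℝ) * J.dd 0 1 * J.e₁ + (-1 : ℝ) * J.dd 0 1 * J.e₂ := by
  try simp only [dW_eq, t_eq, dl_zero, dl_one, dl_two, du_zero, du_one, du_two, so, fr_add_left, fr_add_right,
    fr_sub_left, fr_sub_right, fr_smul_left, fr_smul_right, fr_neg_left, fr_neg_right, fr_vmv_left,
    fr_vmv_right, fr_one_left, fr_one_right, trace_add, trace_sub, trace_neg, trace_smul,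
    trace_vecMulVec, trace_one_three, add_mulVec, sub_mulVec, neg_mulVec, smul_mulVec, one_mulVec,
    mulVec_add, mulVec_sub, mulVec_smul, dot_vmv, dotProduct_add, add_dotProduct, dotProduct_sub,
    sub_dotProduct, dotProduct_neg, neg_dotProduct, dotProduct_smul, smul_dotProduct, smul_eq_mul,
    dot_eq, hh_eq, tt_eq, h.trace_H, h.trace_C]
  try simp only [h.dd_one_two, h.dd_two_one, h.hh10, h.dd10, h.hh20, h.dd20, h.hh21, h.tt010, h.tt020,
    h.tt021, h.tt100, h.tt101, h.tt102, h.tt110, h.tt120, h.tt121, h.tt200, h.tt201, h.tt202,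
    h.tt210, h.tt211, h.tt212, h.tt220, h.tt221, fr_comm (J.C 0) J.H, fr_comm (J.C 1) J.H,
    fr_comm (J.C 2) J.H, fr_comm (J.C 1) (J.C 0), fr_comm (J.C 2) (J.C 0),
    fr_comm (J.C 2) (J.C 1)]
  try ring

lemma fr_z12_g22 : fr (J.so 1 2) (J.dd 2 2 • (1 : Matrix (Fin 3) (Fin 3) ℝ)) =
      (1 : ℝ) * J.dd 2 2 * J.e₁ + (-1 : ℝ) * J.dd 2 2 * J.e₂ := by
  try simp only [dW_eq, t_eq, dl_zero, dl_one, dl_two, du_zero, du_one, du_two, so, fr_add_left, fr_add_right,
    fr_sub_left, fr_sub_right, fr_smul_left, fr_smul_right, fr_neg_left, fr_neg_right, fr_vmv_left,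
    fr_vmv_right, fr_one_left, fr_one_right, trace_add, trace_sub, trace_neg, trace_smul,
    trace_vecMulVec, trace_one_three, add_mulVec, sub_mulVec, neg_mulVec, smul_mulVec, one_mulVec,
    mulVec_add, mulVec_sub, mulVec_smul, dot_vmv, dotProduct_add, add_dotProduct, dotProduct_sub,
    sub_dotProduct, dotProduct_neg, neg_dotProduct, dotProduct_smul, smul_dotProduct, smul_eq_mul,
    dot_eq, hh_eq, tt_eq, h.trace_H, h.trace_C]
  try simp only [h.dd_one_two, h.dd_two_one, h.hh10, h.dd10, h.hh20, h.dd20, h.hh21, h.tt010, h.tt020,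
    h.tt021, h.tt100, h.tt101, h.tt102, h.tt110, h.tt120, h.tt121, h.tt200, h.tt201, h.tt202,
    h.tt210, h.tt211, h.tt212, h.tt220, h.tt221, fr_comm (J.C 0) J.H, fr_comm (J.C 1) J.H,
    fr_comm (J.C 2) J.H, fr_comm (J.C 1) (J.C 0), fr_comm (J.C 2) (J.C 0),
    fr_comm (J.C 2) (J.C 1)]
  try ring

lemma fr_z22_g01 : fr (J.so 2 2) (J.dd 0 1 • (1 : Matrix (Fin 3) (Fin 3) ℝ)) =
      (1 : ℝ) * J.dd 0 1 * J.dd 2 2 := by
  try simp only [dW_eq, t_eq, dl_zero, dl_one, dl_two, du_zero, du_one, du_two, so, fr_add_left, fr_add_right,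
    fr_sub_left, fr_sub_right, fr_smul_left, fr_smul_right, fr_neg_left, fr_neg_right, fr_vmv_left,
    fr_vmv_right, fr_one_left, fr_one_right, trace_add, trace_sub, trace_neg, trace_smul,
    trace_vecMulVec, trace_one_three, add_mulVec, sub_mulVec, neg_mulVec, smul_mulVec, one_mulVec,
    mulVec_add, mulVec_sub, mulVec_smul, dot_vmv, dotProduct_add, add_dotProduct, dotProduct_sub,
    sub_dotProduct, dotProduct_neg, neg_dotProduct, dotProduct_smul, smul_dotProduct, smul_eq_mul,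
    dot_eq, hh_eq, tt_eq, h.trace_H, h.trace_C]
  try simp only [h.dd_one_two, h.dd_two_one, h.hh10, h.dd10, h.hh20, h.dd20, h.hh21, h.tt010, h.tt020,
    h.tt021, h.tt100, h.tt101, h.tt102, h.tt110, h.tt120, h.tt121, h.tt200, h.tt201, h.tt202,
    h.tt210, h.tt211, h.tt212, h.tt220, h.tt221, fr_comm (J.C 0) J.H, fr_comm (J.C 1) J.H,
    fr_comm (J.C 2) J.H, fr_comm (J.C 1) (J.C 0), fr_comm (J.C 2) (J.C 0),
    fr_comm (J.C 2) (J.C 1)]
  try ring

lemma fr_z22_g22 : fr (J.so 2 2) (J.dd 2 2 • (1 : Matrix (Fin 3) (Fin 3) ℝ)) =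
      (1 : ℝ) * J.dd 2 2 * J.dd 2 2 := by
  try simp only [dW_eq, t_eq, dl_zero, dl_one, dl_two, du_zero, du_one, du_two, so, fr_add_left, fr_add_right,
    fr_sub_left, fr_sub_right, fr_smul_left, fr_smul_right, fr_neg_left, fr_neg_right, fr_vmv_left,
    fr_vmv_right, fr_one_left, fr_one_right, trace_add, trace_sub, trace_neg, trace_smul,
    trace_vecMulVec, trace_one_three, add_mulVec, sub_mulVec, neg_mulVec, smul_mulVec, one_mulVec,
    mulVec_add, mulVec_sub, mulVec_smul, dot_vmv, dotProduct_add, add_dotProduct, dotProduct_sub,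
    sub_dotProduct, dotProduct_neg, neg_dotProduct, dotProduct_smul, smul_dotProduct, smul_eq_mul,
    dot_eq, hh_eq, tt_eq, h.trace_H, h.trace_C]
  try simp only [h.dd_one_two, h.dd_two_one, h.hh10, h.dd10, h.hh20, h.dd20, h.hh21, h.tt010, h.tt020,
    h.tt021, h.tt100, h.tt101, h.tt102, h.tt110, h.tt120, h.tt121, h.tt200, h.tt201, h.tt202,
    h.tt210, h.tt211, h.tt212, h.tt220, h.tt221, fr_comm (J.C 0) J.H, fr_comm (J.C 1) J.H,
    fr_comm (J.C 2) J.H, fr_comm (J.C 1) (J.C 0), fr_comm (J.C 2) (J.C 0),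
    fr_comm (J.C 2) (J.C 1)]
  try ring

lemma fr_g00_g02 : fr (J.dd 0 0 • (1 : Matrix (Fin 3) (Fin 3) ℝ)) (J.dd 0 2 • (1 : Matrix (Fin 3) (Fin 3) ℝ)) =
      (3 : ℝ) * J.dd 0 0 * J.dd 0 2 := by
  try simp only [dW_eq, t_eq, dl_zero, dl_one, dl_two, du_zero, du_one, du_two, so, fr_add_left, fr_add_right,
    fr_sub_left, fr_sub_right, fr_smul_left, fr_smul_right, fr_neg_left, fr_neg_right, fr_vmv_left,
    fr_vmv_right, fr_one_left, fr_one_right, trace_add, trace_sub, trace_neg, trace_smul,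
    trace_vecMulVec, trace_one_three, add_mulVec, sub_mulVec, neg_mulVec, smul_mulVec, one_mulVec,
    mulVec_add, mulVec_sub, mulVec_smul, dot_vmv, dotProduct_add, add_dotProduct, dotProduct_sub,
    sub_dotProduct, dotProduct_neg, neg_dotProduct, dotProduct_smul, smul_dotProduct, smul_eq_mul,
    dot_eq, hh_eq, tt_eq, h.trace_H, h.trace_C]
  try simp only [h.dd_one_two, h.dd_two_one, h.hh10, h.dd10, h.hh20, h.dd20, h.hh21, h.tt010, h.tt020,
    h.tt021, h.tt100, h.tt101, h.tt102, h.tt110, h.tt120, h.tt121, h.tt200, h.tt201, h.tt202,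
    h.tt210, h.tt211, h.tt212, h.tt220, h.tt221, fr_comm (J.C 0) J.H, fr_comm (J.C 1) J.H,
    fr_comm (J.C 2) J.H, fr_comm (J.C 1) (J.C 0), fr_comm (J.C 2) (J.C 0),
    fr_comm (J.C 2) (J.C 1)]
  try ring

lemma fr_g01_g01 : fr (J.dd 0 1 • (1 : Matrix (Fin 3) (Fin 3) ℝ)) (J.dd 0 1 • (1 : Matrix (Fin 3) (Fin 3) ℝ)) =
      (3 : ℝ) * J.dd 0 1 * J.dd 0 1 := by
  try simp only [dW_eq, t_eq, dl_zero, dl_one, dl_two, du_zero, du_one, du_two, so, fr_add_left, fr_add_right,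
    fr_sub_left, fr_sub_right, fr_smul_left, fr_smul_right, fr_neg_left, fr_neg_right, fr_vmv_left,
    fr_vmv_right, fr_one_left, fr_one_right, trace_add, trace_sub, trace_neg, trace_smul,
    trace_vecMulVec, trace_one_three, add_mulVec, sub_mulVec, neg_mulVec, smul_mulVec, one_mulVec,
    mulVec_add, mulVec_sub, mulVec_smul, dot_vmv, dotProduct_add, add_dotProduct, dotProduct_sub,
    sub_dotProduct, dotProduct_neg, neg_dotProduct, dotProduct_smul, smul_dotProduct, smul_eq_mul,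
    dot_eq, hh_eq, tt_eq, h.trace_H, h.trace_C]
  try simp only [h.dd_one_two, h.dd_two_one, h.hh10, h.dd10, h.hh20, h.dd20, h.hh21, h.tt010, h.tt020,
    h.tt021, h.tt100, h.tt101, h.tt102, h.tt110, h.tt120, h.tt121, h.tt200, h.tt201, h.tt202,
    h.tt210, h.tt211, h.tt212, h.tt220, h.tt221, fr_comm (J.C 0) J.H, fr_comm (J.C 1) J.H,
    fr_comm (J.C 2) J.H, fr_comm (J.C 1) (J.C 0), fr_comm (J.C 2) (J.C 0),
    fr_comm (J.C 2) (J.C 1)]
  try ring

lemma fr_g01_g22 : fr (J.dd 0 1 • (1 : Matrix (Fin 3) (Fin 3) ℝ)) (J.dd 2 2 • (1 : Matrix (Fin 3) (Fin 3) ℝ)) =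
      (3 : ℝ) * J.dd 0 1 * J.dd 2 2 := by
  try simp only [dW_eq, t_eq, dl_zero, dl_one, dl_two, du_zero, du_one, du_two, so, fr_add_left, fr_add_right,
    fr_sub_left, fr_sub_right, fr_smul_left, fr_smul_right, fr_neg_left, fr_neg_right, fr_vmv_left,
    fr_vmv_right, fr_one_left, fr_one_right, trace_add, trace_sub, trace_neg, trace_smul,
    trace_vecMulVec, trace_one_three, add_mulVec, sub_mulVec, neg_mulVec, smul_mulVec, one_mulVec,
    mulVec_add, mulVec_sub, mulVec_smul, dot_vmv, dotProduct_add, add_dotProduct, dotProduct_sub,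
    sub_dotProduct, dotProduct_neg, neg_dotProduct, dotProduct_smul, smul_dotProduct, smul_eq_mul,
    dot_eq, hh_eq, tt_eq, h.trace_H, h.trace_C]
  try simp only [h.dd_one_two, h.dd_two_one, h.hh10, h.dd10, h.hh20, h.dd20, h.hh21, h.tt010, h.tt020,
    h.tt021, h.tt100, h.tt101, h.tt102, h.tt110, h.tt120, h.tt121, h.tt200, h.tt201, h.tt202,
    h.tt210, h.tt211, h.tt212, h.tt220, h.tt221, fr_comm (J.C 0) J.H, fr_comm (J.C 1) J.H,
    fr_comm (J.C 2) J.H, fr_comm (J.C 1) (J.C 0), fr_comm (J.C 2) (J.C 0),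
    fr_comm (J.C 2) (J.C 1)]
  try ring

lemma fr_g02_g22 : fr (J.dd 0 2 • (1 : Matrix (Fin 3) (Fin 3) ℝ)) (J.dd 2 2 • (1 : Matrix (Fin 3) (Fin 3) ℝ)) =
      (3 : ℝ) * J.dd 0 2 * J.dd 2 2 := by
  try simp only [dW_eq, t_eq, dl_zero, dl_one, dl_two, du_zero, du_one, du_two, so, fr_add_left, fr_add_right,
    fr_sub_left, fr_sub_right, fr_smul_left, fr_smul_right, fr_neg_left, fr_neg_right, fr_vmv_left,
    fr_vmv_right, fr_one_left, fr_one_right, trace_add, trace_sub, trace_neg, trace_smul,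
    trace_vecMulVec, trace_one_three, add_mulVec, sub_mulVec, neg_mulVec, smul_mulVec, one_mulVec,
    mulVec_add, mulVec_sub, mulVec_smul, dot_vmv, dotProduct_add, add_dotProduct, dotProduct_sub,
    sub_dotProduct, dotProduct_neg, neg_dotProduct, dotProduct_smul, smul_dotProduct, smul_eq_mul,
    dot_eq, hh_eq, tt_eq, h.trace_H, h.trace_C]
  try simp only [h.dd_one_two, h.dd_two_one, h.hh10, h.dd10, h.hh20, h.dd20, h.hh21, h.tt010, h.tt020,
    h.tt021, h.tt100, h.tt101, h.tt102, h.tt110, h.tt120, h.tt121, h.tt200, h.tt201, h.tt202,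
    h.tt210, h.tt211, h.tt212, h.tt220, h.tt221, fr_comm (J.C 0) J.H, fr_comm (J.C 1) J.H,
    fr_comm (J.C 2) J.H, fr_comm (J.C 1) (J.C 0), fr_comm (J.C 2) (J.C 0),
    fr_comm (J.C 2) (J.C 1)]
  try ring

lemma fr_g22_g22 : fr (J.dd 2 2 • (1 : Matrix (Fin 3) (Fin 3) ℝ)) (J.dd 2 2 • (1 : Matrix (Fin 3) (Fin 3) ℝ)) =
      (3 : ℝ) * J.dd 2 2 * J.dd 2 2 := by
  try simp only [dW_eq, t_eq, dl_zero, dl_one, dl_two, du_zero, du_one, du_two, so, fr_add_left, fr_add_right,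
    fr_sub_left, fr_sub_right, fr_smul_left, fr_smul_right, fr_neg_left, fr_neg_right, fr_vmv_left,
    fr_vmv_right, fr_one_left, fr_one_right, trace_add, trace_sub, trace_neg, trace_smul,
    trace_vecMulVec, trace_one_three, add_mulVec, sub_mulVec, neg_mulVec, smul_mulVec, one_mulVec,
    mulVec_add, mulVec_sub, mulVec_smul, dot_vmv, dotProduct_add, add_dotProduct, dotProduct_sub,
    sub_dotProduct, dotProduct_neg, neg_dotProduct, dotProduct_smul, smul_dotProduct, smul_eq_mul,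
    dot_eq, hh_eq, tt_eq, h.trace_H, h.trace_C]
  try simp only [h.dd_one_two, h.dd_two_one, h.hh10, h.dd10, h.hh20, h.dd20, h.hh21, h.tt010, h.tt020,
    h.tt021, h.tt100, h.tt101, h.tt102, h.tt110, h.tt120, h.tt121, h.tt200, h.tt201, h.tt202,
    h.tt210, h.tt211, h.tt212, h.tt220, h.tt221, fr_comm (J.C 0) J.H, fr_comm (J.C 1) J.H,
    fr_comm (J.C 2) J.H, fr_comm (J.C 1) (J.C 0), fr_comm (J.C 2) (J.C 0),
    fr_comm (J.C 2) (J.C 1)]
  try ring


end Jet

end

end Vale.Agent.P252.Three
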