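import Vale.Agent.P252.Rigidity.Three.Cert.Fields
import Vale.Agent.P252.Rigidity.Three.Cert.Products1
import Vale.Agent.P252.Rigidity.Three.Cert.Products2
import Vale.Agent.P252.Rigidity.Three.Cert.Products3
import Vale.Agent.P252.Rigidity.Three.Cert.Quad

/-!
# The flux is the Gram form plus terms in `e₁`, `e₂` (generated)
-/

set_option linter.unusedSimpArgs false
set_option linter.unusedSectionVars false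

namespace Vale.Agent.P252.Three

open Matrix Finset

noncomputable section

namespace Jet

variable {J : Jet}

/-- The Gram form, a sum over the matrix entries. -/
def gram (J : Jet) : ℝ :=
  ∑ i, ∑ a, qForm
    (J.H i a)
    ((J.C 0) i a)
    ((J.C 1) i a)
    ((J.C 2) i a)
    ((J.so 0 0) i a)
    ((J.so 0 1) i a)
    ((J.so 0 2) i a)
    ((J.so 1 1) i a)
    ((J.so 1 2) i a)
    ((J.so 2 2) i a)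
    ((J.dd 0 0 • (1 : Matrix (Fin 3) (Fin 3) ℝ)) i a)
    ((J.dd 0 1 • (1 : Matrix (Fin 3) (Fin 3) ℝ)) i a)
    ((J.dd 0 2 • (1 : Matrix (Fin 3) (Fin 3) ℝ)) i a)
    ((J.dd 1 1 • (1 : Matrix (Fin 3) (Fin 3) ℝ)) i a)
    ((J.dd 2 2 • (1 : Matrix (Fin 3) (Fin 3) ℝ)) i a)

set_option maxRecDepth 8000 in
set_option maxHeartbeats 1000000 in
lemma gram_eq : J.gram =
      (502 : ℝ) * fr J.H J.H + (-756 : ℝ) * fr J.H (J.C 0) + (-17718 : ℝ) * fr J.H (J.C 1) +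
      (40 : ℝ) * fr J.H (J.C 2) + (9299 / 20 : ℝ) * fr J.H (J.so 0 0) +
      (27408 : ℝ) * fr J.H (J.so 0 1) + (134461 / 40 : ℝ) * fr J.H (J.so 0 2) +
      (-58740 : ℝ) * fr J.H (J.so 1 1) + (47873 : ℝ) * fr J.H (J.so 1 2) +
      (9602 : ℝ) * fr J.H (J.so 2 2) +
      (-170 : ℝ) * fr J.H (J.dd 0 0 • (1 : Matrix (Fin 3) (Fin 3) ℝ)) +
      (-3252 : ℝ) * fr J.H (J.dd 0 1 • (1 : Matrix (Fin 3) (Fin 3) ℝ)) +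
      (-1050 : ℝ) * fr J.H (J.dd 0 2 • (1 : Matrix (Fin 3) (Fin 3) ℝ)) +
      (17426 : ℝ) * fr J.H (J.dd 1 1 • (1 : Matrix (Fin 3) (Fin 3) ℝ)) +
      (-2722 : ℝ) * fr J.H (J.dd 2 2 • (1 : Matrix (Fin 3) (Fin 3) ℝ)) +
      (378 : ℝ) * fr (J.C 0) (J.C 0) + (17718 : ℝ) * fr (J.C 0) (J.C 1) +
      (-7477 / 20 : ℝ) * fr (J.C 0) (J.so 0 0) + (-88307 / 4 : ℝ) * fr (J.C 0) (J.so 0 1) +
      (-89053 / 40 : ℝ) * fr (J.C 0) (J.so 0 2) + (-237920 : ℝ) * fr (J.C 0) (J.so 1 1) +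
      (-57353 : ℝ) * fr (J.C 0) (J.so 1 2) + (-5826 : ℝ) * fr (J.C 0) (J.so 2 2) +
      (78 : ℝ) * fr (J.C 0) (J.dd 0 0 • (1 : Matrix (Fin 3) (Fin 3) ℝ)) +
      (1330 : ℝ) * fr (J.C 0) (J.dd 0 1 • (1 : Matrix (Fin 3) (Fin 3) ℝ)) +
      (684 : ℝ) * fr (J.C 0) (J.dd 0 2 • (1 : Matrix (Fin 3) (Fin 3) ℝ)) +
      (69844 : ℝ) * fr (J.C 0) (J.dd 1 1 • (1 : Matrix (Fin 3) (Fin 3) ℝ)) +
      (1592 : ℝ) * fr (J.C 0) (J.dd 2 2 • (1 : Matrix (Fin 3) (Fin 3) ℝ)) +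
      (791013 : ℝ) * fr (J.C 1) (J.C 1) + (-6324 : ℝ) * fr (J.C 1) (J.so 0 0) +
      (-10658305 / 8 : ℝ) * fr (J.C 1) (J.so 0 1) + (-20682 : ℝ) * fr (J.C 1) (J.so 0 2) +
      (-41168614 : ℝ) * fr (J.C 1) (J.so 1 1) + (-1439470 : ℝ) * fr (J.C 1) (J.so 1 2) +
      (14314 : ℝ) * fr (J.C 1) (J.so 2 2) +
      (1372 : ℝ) * fr (J.C 1) (J.dd 0 0 • (1 : Matrix (Fin 3) (Fin 3) ℝ)) +
      (-2057887 / 20 : ℝ) * fr (J.C 1) (J.dd 0 1 • (1 : Matrix (Fin 3) (Fin 3) ℝ)) +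
      (6020 : ℝ) * fr (J.C 1) (J.dd 0 2 • (1 : Matrix (Fin 3) (Fin 3) ℝ)) +
      (12063154 : ℝ) * fr (J.C 1) (J.dd 1 1 • (1 : Matrix (Fin 3) (Fin 3) ℝ)) +
      (-12346 : ℝ) * fr (J.C 1) (J.dd 2 2 • (1 : Matrix (Fin 3) (Fin 3) ℝ)) +
      (4815 : ℝ) * fr (J.C 2) (J.C 2) + (14 : ℝ) * fr (J.C 2) (J.so 0 0) +
      (1048 : ℝ) * fr (J.C 2) (J.so 0 1) + (143379 / 8 : ℝ) * fr (J.C 2) (J.so 0 2) +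
      (-57638 : ℝ) * fr (J.C 2) (J.so 1 1) + (449207 : ℝ) * fr (J.C 2) (J.so 1 2) +
      (88541 : ℝ) * fr (J.C 2) (J.so 2 2) +
      (-14 : ℝ) * fr (J.C 2) (J.dd 0 0 • (1 : Matrix (Fin 3) (Fin 3) ℝ)) +
      (-364 : ℝ) * fr (J.C 2) (J.dd 0 1 • (1 : Matrix (Fin 3) (Fin 3) ℝ)) +
      (-8716 : ℝ) * fr (J.C 2) (J.dd 0 2 • (1 : Matrix (Fin 3) (Fin 3) ℝ)) +
      (16226 : ℝ) * fr (J.C 2) (J.dd 1 1 • (1 : Matrix (Fin 3) (Fin 3) ℝ)) +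
      (-26880 : ℝ) * fr (J.C 2) (J.dd 2 2 • (1 : Matrix (Fin 3) (Fin 3) ℝ)) +
      (2289 / 20 : ℝ) * fr (J.so 0 0) (J.so 0 0) + (447657 / 40 : ℝ) * fr (J.so 0 0) (J.so 0 1) +
      (31773 / 20 : ℝ) * fr (J.so 0 0) (J.so 0 2) + (-66822 : ℝ) * fr (J.so 0 0) (J.so 1 1) +
      (24688 : ℝ) * fr (J.so 0 0) (J.so 1 2) + (4588 : ℝ) * fr (J.so 0 0) (J.so 2 2) +
      (-74 : ℝ) * fr (J.so 0 0) (J.dd 0 0 • (1 : Matrix (Fin 3) (Fin 3) ℝ)) +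
      (-1654 : ℝ) * fr (J.so 0 0) (J.dd 0 1 • (1 : Matrix (Fin 3) (Fin 3) ℝ)) +
      (-494 : ℝ) * fr (J.so 0 0) (J.dd 0 2 • (1 : Matrix (Fin 3) (Fin 3) ℝ)) +
      (19636 : ℝ) * fr (J.so 0 0) (J.dd 1 1 • (1 : Matrix (Fin 3) (Fin 3) ℝ)) +
      (-1308 : ℝ) * fr (J.so 0 0) (J.dd 2 2 • (1 : Matrix (Fin 3) (Fin 3) ℝ)) +
      (13320879 / 20 : ℝ) * fr (J.so 0 1) (J.so 0 1) +
      (271863 / 4 : ℝ) * fr (J.so 0 1) (J.so 0 2) +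
      (101635753 / 4 : ℝ) * fr (J.so 0 1) (J.so 1 1) +
      (3085433 / 2 : ℝ) * fr (J.so 0 1) (J.so 1 2) + (148218 : ℝ) * fr (J.so 0 1) (J.so 2 2) +
      (-3962 : ℝ) * fr (J.so 0 1) (J.dd 0 0 • (1 : Matrix (Fin 3) (Fin 3) ℝ)) +
      (13264 : ℝ) * fr (J.so 0 1) (J.dd 0 1 • (1 : Matrix (Fin 3) (Fin 3) ℝ)) +
      (-21080 : ℝ) * fr (J.so 0 1) (J.dd 0 2 • (1 : Matrix (Fin 3) (Fin 3) ℝ)) +
      (-7439516 : ℝ) * fr (J.so 0 1) (J.dd 1 1 • (1 : Matrix (Fin 3) (Fin 3) ℝ)) +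
      (-36774 : ℝ) * fr (J.so 0 1) (J.dd 2 2 • (1 : Matrix (Fin 3) (Fin 3) ℝ)) +
      (493157 / 20 : ℝ) * fr (J.so 0 2) (J.so 0 2) + (-1649172 : ℝ) * fr (J.so 0 2) (J.so 1 1) +
      (3810491 / 4 : ℝ) * fr (J.so 0 2) (J.so 1 2) +
      (1758485 / 8 : ℝ) * fr (J.so 0 2) (J.so 2 2) +
      (-666 : ℝ) * fr (J.so 0 2) (J.dd 0 0 • (1 : Matrix (Fin 3) (Fin 3) ℝ)) +
      (-16512 : ℝ) * fr (J.so 0 2) (J.dd 0 1 • (1 : Matrix (Fin 3) (Fin 3) ℝ)) +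
      (-847377 / 40 : ℝ) * fr (J.so 0 2) (J.dd 0 2 • (1 : Matrix (Fin 3) (Fin 3) ℝ)) +
      (482864 : ℝ) * fr (J.so 0 2) (J.dd 1 1 • (1 : Matrix (Fin 3) (Fin 3) ℝ)) +
      (-66298 : ℝ) * fr (J.so 0 2) (J.dd 2 2 • (1 : Matrix (Fin 3) (Fin 3) ℝ)) +
      (760830847 : ℝ) * fr (J.so 1 1) (J.so 1 1) + (32057194 : ℝ) * fr (J.so 1 1) (J.so 1 2) +
      (-7420486 : ℝ) * fr (J.so 1 1) (J.so 2 2) +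
      (100900 : ℝ) * fr (J.so 1 1) (J.dd 0 0 • (1 : Matrix (Fin 3) (Fin 3) ℝ)) +
      (5993374 : ℝ) * fr (J.so 1 1) (J.dd 0 1 • (1 : Matrix (Fin 3) (Fin 3) ℝ)) +
      (541174 : ℝ) * fr (J.so 1 1) (J.dd 0 2 • (1 : Matrix (Fin 3) (Fin 3) ℝ)) +
      (-445772362 : ℝ) * fr (J.so 1 1) (J.dd 1 1 • (1 : Matrix (Fin 3) (Fin 3) ℝ)) +
      (2406116 : ℝ) * fr (J.so 1 1) (J.dd 2 2 • (1 : Matrix (Fin 3) (Fin 3) ℝ)) +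
      (13065742 : ℝ) * fr (J.so 1 2) (J.so 1 2) + (4399416 : ℝ) * fr (J.so 1 2) (J.so 2 2) +
      (-2206 : ℝ) * fr (J.so 1 2) (J.dd 0 0 • (1 : Matrix (Fin 3) (Fin 3) ℝ)) +
      (-18230 : ℝ) * fr (J.so 1 2) (J.dd 0 1 • (1 : Matrix (Fin 3) (Fin 3) ℝ)) +
      (-443210 : ℝ) * fr (J.so 1 2) (J.dd 0 2 • (1 : Matrix (Fin 3) (Fin 3) ℝ)) +
      (-9450084 : ℝ) * fr (J.so 1 2) (J.dd 1 1 • (1 : Matrix (Fin 3) (Fin 3) ℝ)) +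
      (-1322500 : ℝ) * fr (J.so 1 2) (J.dd 2 2 • (1 : Matrix (Fin 3) (Fin 3) ℝ)) +
      (510844 : ℝ) * fr (J.so 2 2) (J.so 2 2) +
      (-2066 : ℝ) * fr (J.so 2 2) (J.dd 0 0 • (1 : Matrix (Fin 3) (Fin 3) ℝ)) +
      (-57606 : ℝ) * fr (J.so 2 2) (J.dd 0 1 • (1 : Matrix (Fin 3) (Fin 3) ℝ)) +
      (-97430 : ℝ) * fr (J.so 2 2) (J.dd 0 2 • (1 : Matrix (Fin 3) (Fin 3) ℝ)) +
      (2170826 : ℝ) * fr (J.so 2 2) (J.dd 1 1 • (1 : Matrix (Fin 3) (Fin 3) ℝ)) +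
      (-308580 : ℝ) * fr (J.so 2 2) (J.dd 2 2 • (1 : Matrix (Fin 3) (Fin 3) ℝ)) +
      (22 : ℝ) * fr (J.dd 0 0 • (1 : Matrix (Fin 3) (Fin 3) ℝ)) (J.dd 0 0 • (1 : Matrix (Fin 3) (Fin 3) ℝ)) +
      (910 : ℝ) * fr (J.dd 0 0 • (1 : Matrix (Fin 3) (Fin 3) ℝ)) (J.dd 0 1 • (1 : Matrix (Fin 3) (Fin 3) ℝ)) +
      (210 : ℝ) * fr (J.dd 0 0 • (1 : Matrix (Fin 3) (Fin 3) ℝ)) (J.dd 0 2 • (1 : Matrix (Fin 3) (Fin 3) ℝ)) +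
      (-29686 : ℝ) * fr (J.dd 0 0 • (1 : Matrix (Fin 3) (Fin 3) ℝ)) (J.dd 1 1 • (1 : Matrix (Fin 3) (Fin 3) ℝ)) +
      (604 : ℝ) * fr (J.dd 0 0 • (1 : Matrix (Fin 3) (Fin 3) ℝ)) (J.dd 2 2 • (1 : Matrix (Fin 3) (Fin 3) ℝ)) +
      (17268 : ℝ) * fr (J.dd 0 1 • (1 : Matrix (Fin 3) (Fin 3) ℝ)) (J.dd 0 1 • (1 : Matrix (Fin 3) (Fin 3) ℝ)) +
      (5266 : ℝ) * fr (J.dd 0 1 • (1 : Matrix (Fin 3) (Fin 3) ℝ)) (J.dd 0 2 • (1 : Matrix (Fin 3) (Fin 3) ℝ)) +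
      (-1758032 : ℝ) * fr (J.dd 0 1 • (1 : Matrix (Fin 3) (Fin 3) ℝ)) (J.dd 1 1 • (1 : Matrix (Fin 3) (Fin 3) ℝ)) +
      (17492 : ℝ) * fr (J.dd 0 1 • (1 : Matrix (Fin 3) (Fin 3) ℝ)) (J.dd 2 2 • (1 : Matrix (Fin 3) (Fin 3) ℝ)) +
      (4760 : ℝ) * fr (J.dd 0 2 • (1 : Matrix (Fin 3) (Fin 3) ℝ)) (J.dd 0 2 • (1 : Matrix (Fin 3) (Fin 3) ℝ)) +
      (-158224 : ℝ) * fr (J.dd 0 2 • (1 : Matrix (Fin 3) (Fin 3) ℝ)) (J.dd 1 1 • (1 : Matrix (Fin 3) (Fin 3) ℝ)) +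
      (29458 : ℝ) * fr (J.dd 0 2 • (1 : Matrix (Fin 3) (Fin 3) ℝ)) (J.dd 2 2 • (1 : Matrix (Fin 3) (Fin 3) ℝ)) +
      (66162755 : ℝ) * fr (J.dd 1 1 • (1 : Matrix (Fin 3) (Fin 3) ℝ)) (J.dd 1 1 • (1 : Matrix (Fin 3) (Fin 3) ℝ)) +
      (-703836 : ℝ) * fr (J.dd 1 1 • (1 : Matrix (Fin 3) (Fin 3) ℝ)) (J.dd 2 2 • (1 : Matrix (Fin 3) (Fin 3) ℝ)) +
      (48047 : ℝ) * fr (J.dd 2 2 • (1 : Matrix (Fin 3) (Fin 3) ℝ)) (J.dd 2 2 • (1 : Matrix (Fin 3) (Fin 3) ℝ)) := by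
  simp (config := { maxSteps := 2000000 }) only [gram, qForm, Finset.sum_add_distrib, ← Finset.mul_sum, fr]

set_option maxRecDepth 8000 in
set_option maxHeartbeats 1000000 in
lemma flux_eq (h : J.Valid) : J.flux = J.gram +
      ((12289 / 8 : ℝ) * J.dd 0 0 * J.e₁ + (-702373 / 40 : ℝ) * J.dd 0 0 * J.e₂ +
      (1909155 / 4 : ℝ) * J.dd 0 1 * J.e₁ + (-10855527 / 4 : ℝ) * J.dd 0 1 * J.e₂ +
      (-914163 / 8 : ℝ) * J.dd 0 2 * J.e₁ + (683163 / 8 : ℝ) * J.dd 0 2 * J.e₂ +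
      (-62206780 : ℝ) * J.dd 1 1 * J.e₁ + (-34765300 : ℝ) * J.dd 1 1 * J.e₂ +
      (-752711 : ℝ) * J.dd 2 2 * J.e₁ + (-331019 : ℝ) * J.dd 2 2 * J.e₂ +
      (-359605 : ℝ) * J.e₁ * J.e₁ + (-1019560 : ℝ) * J.e₁ * J.e₂ + (1379165 : ℝ) * J.e₂ * J.e₂) := by
  simp only [flux, gram_eq,
    fieldK_000 h, fieldK_001 h, fieldK_002 h, fieldK_011 h,
    fieldK_022 h, fieldK_100 h, fieldK_101 h, fieldK_102 h,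
    fieldK_111 h, fieldK_122 h, fieldK_200 h, fieldK_201 h,
    fieldK_202 h, fieldK_211 h, fieldK_222 h, fieldH_0 h,
    fieldH_1 h, fieldH_2 h, fieldT_00 h, fieldT_01 h,
    fieldT_02 h, fieldT_11 h, fieldT_12 h, fieldT_22 h,
    fr_H_z00 h, fr_H_z01 h, fr_H_z02 h, fr_H_z11 h,
    fr_H_z12 h, fr_H_z22 h, fr_H_g00 h, fr_H_g01 h,
    fr_H_g02 h, fr_H_g11 h, fr_H_g22 h, fr_C0_z00 h,
    fr_C0_z01 h, fr_C0_z02 h, fr_C0_z11 h, fr_C0_z12 h,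
    fr_C0_z22 h, fr_C0_g00 h, fr_C0_g01 h, fr_C0_g02 h,
    fr_C0_g11 h, fr_C0_g22 h, fr_C1_z00 h, fr_C1_z01 h,
    fr_C1_z02 h, fr_C1_z11 h, fr_C1_z12 h, fr_C1_z22 h,
    fr_C1_g00 h, fr_C1_g01 h, fr_C1_g02 h, fr_C1_g11 h,
    fr_C1_g22 h, fr_C2_z00 h, fr_C2_z01 h, fr_C2_z02 h,
    fr_C2_z11 h, fr_C2_z12 h, fr_C2_z22 h, fr_C2_g00 h,
    fr_C2_g01 h, fr_C2_g02 h, fr_C2_g11 h, fr_C2_g22 h,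
    fr_z00_z00 h, fr_z00_z01 h, fr_z00_z02 h, fr_z00_z11 h,
    fr_z00_z12 h, fr_z00_z22 h, fr_z00_g00 h, fr_z00_g01 h,
    fr_z00_g02 h, fr_z00_g11 h, fr_z00_g22 h, fr_z01_z01 h,
    fr_z01_z02 h, fr_z01_z11 h, fr_z01_z12 h, fr_z01_z22 h,
    fr_z01_g00 h, fr_z01_g01 h, fr_z01_g02 h, fr_z01_g11 h,
    fr_z01_g22 h, fr_z02_z02 h, fr_z02_z11 h, fr_z02_z12 h,
    fr_z02_z22 h, fr_z02_g00 h, fr_z02_g01 h, fr_z02_g02 h,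
    fr_z02_g11 h, fr_z02_g22 h, fr_z11_z11 h, fr_z11_z12 h,
    fr_z11_z22 h, fr_z11_g00 h, fr_z11_g01 h, fr_z11_g02 h,
    fr_z11_g11 h, fr_z11_g22 h, fr_z12_z12 h, fr_z12_z22 h,
    fr_z12_g00 h, fr_z12_g01 h, fr_z12_g02 h, fr_z12_g11 h,
    fr_z12_g22 h, fr_z22_z22 h, fr_z22_g00 h, fr_z22_g01 h,
    fr_z22_g02 h, fr_z22_g11 h, fr_z22_g22 h, fr_g00_g00 h,
    fr_g00_g01 h, fr_g00_g02 h, fr_g00_g11 h, fr_g00_g22 h,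
    fr_g01_g01 h, fr_g01_g02 h, fr_g01_g11 h, fr_g01_g22 h,
    fr_g02_g02 h, fr_g02_g11 h, fr_g02_g22 h, fr_g11_g11 h,
    fr_g11_g22 h, fr_g22_g22 h]
  ring

end Jet

end

end Vale.Agent.P252.Three
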