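import Vale.Agent.P252.Rigidity.Three.Cert.Atoms

/-!
# Normal order of the atoms
-/

set_option linter.unusedSimpArgs false
set_option linter.unusedSectionVars false

namespace Vale.Agent.P252.Three

open Matrix Finset

noncomputable section

namespace Jet

variable {J : Jet}

namespace Valid

variable (h : J.Valid)
include h

lemma hh10 : J.hh 1 0 = J.hh 0 1 := h.hh_comm 1 0

lemma dd10 : J.dd 1 0 = J.dd 0 1 := J.dd_comm 1 0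

lemma hh20 : J.hh 2 0 = J.hh 0 2 := h.hh_comm 2 0

lemma dd20 : J.dd 2 0 = J.dd 0 2 := J.dd_comm 2 0

lemma hh21 : J.hh 2 1 = J.hh 1 2 := h.hh_comm 2 1

lemma tt010 : J.tt 0 1 0 = J.tt 0 0 1 := by
  rw [h.tt_swap12 0 1 0, h.tt_swap13 1 0 0]

lemma tt020 : J.tt 0 2 0 = J.tt 0 0 2 := by
  rw [h.tt_swap12 0 2 0, h.tt_swap13 2 0 0]

lemma tt021 : J.tt 0 2 1 = J.tt 0 1 2 := by
  rw [h.tt_swap12 0 2 1, h.tt_swap13 2 0 1, h.tt_swap12 1 0 2]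

lemma tt100 : J.tt 1 0 0 = J.tt 0 0 1 := by
  rw [h.tt_swap13 1 0 0]

lemma tt101 : J.tt 1 0 1 = J.tt 0 1 1 := by
  rw [h.tt_swap12 1 0 1]

lemma tt102 : J.tt 1 0 2 = J.tt 0 1 2 := by
  rw [h.tt_swap12 1 0 2]

lemma tt110 : J.tt 1 1 0 = J.tt 0 1 1 := by
  rw [h.tt_swap13 1 1 0]

lemma tt120 : J.tt 1 2 0 = J.tt 0 1 2 := by
  rw [h.tt_swap12 1 2 0, h.tt_swap13 2 1 0]

lemma tt121 : J.tt 1 2 1 = J.tt 1 1 2 := by
  rw [h.tt_swap12 1 2 1, h.tt_swap13 2 1 1]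

lemma tt200 : J.tt 2 0 0 = J.tt 0 0 2 := by
  rw [h.tt_swap13 2 0 0]

lemma tt201 : J.tt 2 0 1 = J.tt 0 1 2 := by
  rw [h.tt_swap13 2 0 1, h.tt_swap12 1 0 2]

lemma tt202 : J.tt 2 0 2 = J.tt 0 2 2 := by
  rw [h.tt_swap12 2 0 2]

lemma tt210 : J.tt 2 1 0 = J.tt 0 1 2 := by
  rw [h.tt_swap13 2 1 0]

lemma tt211 : J.tt 2 1 1 = J.tt 1 1 2 := by
  rw [h.tt_swap13 2 1 1]

lemma tt212 : J.tt 2 1 2 = J.tt 1 2 2 := by
  rw [h.tt_swap12 2 1 2]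

lemma tt220 : J.tt 2 2 0 = J.tt 0 2 2 := by
  rw [h.tt_swap13 2 2 0]

lemma tt221 : J.tt 2 2 1 = J.tt 1 2 2 := by
  rw [h.tt_swap13 2 2 1]

end Valid

end Jet

end

end Vale.Agent.P252.Three
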